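import Crest.Agent.X212.Dec35.Defs
import Crest.Agent.X212.Sob92.NemF
import Crest.Agent.X212.Wz78.Par
import Crest.Agent.X212.Abel74.Defs

-- ▼ part X212/Cay24/Ob
section

/-!
# Row 212, DEC / CAY (helper24): uniform weighted bounds for families of functions
-/

set_option autoImplicit false
set_option linter.unusedSectionVars false
noncomputable section
open scoped Manifold ContDiff Topology InnerProductSpace
open MeasureTheory Set Function Filter Real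

namespace Crest.Agent.X212.Cay24
open An Sob92 Dec35

variable {E : Type} [NormedAddCommGroup E] [NormedSpace ℝ E] [FiniteDimensional ℝ E]
  [MeasurableSpace E] [BorelSpace E]
  {HM : Type} [TopologicalSpace HM] {I : ModelWithCorners ℝ E HM} [I.Boundaryless]
  {M : Type} [TopologicalSpace M] [ChartedSpace HM M] [IsManifold I ∞ M] [MeasurableSpace M]
  [T2Space M] [BorelSpace M] [SecondCountableTopology M] {ι : Type} [Fintype ι]
  {N N' N'' : Type} [NormedAddCommGroup N] [NormedSpace ℝ N] [NormedAddCommGroup N']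
  [NormedSpace ℝ N'] [NormedAddCommGroup N''] [NormedSpace ℝ N'']

section fl
variable {F : Pre I M ι} {u v : M → N} {S : ℝ}

theorem md (hu : Sm I u) (x : M) : MDifferentiableAt I 𝓘(ℝ, N) u x :=
  hu.mdifferentiableAt (by simp)

theorem N2_nn (k : ℕ) (u : M → N) : 0 ≤ N2 F k u := n2_nonneg k u

theorem fl_add (hu : Fl F u) (hv : Fl F v) : Fl F fun x => u x + v x :=
  ⟨hu.sm.add hv.sm, fun k => ML.add F.sm hu.sm hv.sm (hu.fl k) (hv.fl k)⟩

theorem fl_mul (B : N →L[ℝ] N' →L[ℝ] N'') {f : M → N} {u : M → N'} (hf : F.Cb f) (hu : Fl F u) :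
    Fl F fun x => B (f x) (u x) :=
  let ⟨_, h⟩ := hf
  ⟨smooth_bil B h.1 hu.sm, fun k => (N2_mul B h.1 hu.sm (h.2 k) (hu.fl k)).1⟩

theorem fl_D (hu : Fl F u) (a : ι) : Fl F (F.D a u) :=
  ⟨F.sm_D hu.sm a, fun k => (hu.fl (k + 1)).2 a⟩

theorem N2_add (k : ℕ) (hu : Fl F u) (hv : Fl F v) :
    N2 F k (fun x => u x + v x) ≤ 2 * N2 F k u + 2 * N2 F k v :=
  n2_add_le F.sm k hu.sm hv.sm (hu.fl k) (hv.fl k)

theorem N2_smul {k : ℕ} {f : M → ℝ} {C : ℝ} (hf : Sm I f) (hC : F.CB k f C) (hu : Fl F u) :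
    N2 F k (fun x => f x • u x) ≤ (cK ι k * C) ^ 2 * N2 F k u := by
  refine (N2_mul (ContinuousLinearMap.lsmul ℝ ℝ) hf hu.sm hC (hu.fl k)).2.trans
    (mul_le_mul_of_nonneg_right ?_ (N2_nn k u))
  rw [mul_right_comm, mul_pow]
  exact mul_le_of_le_one_right (sq_nonneg _)
    (pow_le_one₀ (ContinuousLinearMap.opNorm_nonneg _) ContinuousLinearMap.opNorm_lsmul_le)

/-- the Sobolev inequality for functions with all derivatives in `L²` -/
def SupF (F : Pre I M ι) (S : ℝ) : Prop := 0 ≤ S ∧ ∀ (N : Type) [NormedAddCommGroup N]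
  [NormedSpace ℝ N] (u : M → N), Fl F u → ∀ x, ‖u x‖ ^ 2 ≤ S * N2 F 4 u

theorem exists_supF {F : Fr I M ι} {C : ℕ → ℝ} (h : F.Tame C) : ∃ S, SupF F.toPre S := by
  refine ⟨|C 0| * (cK ι 4 * C 4) ^ 2, by positivity, fun N _ _ u hu x => ?_⟩
  obtain ⟨χ, h1, h2, -, h3⟩ := h.exh {x} isCompact_singleton
  have := (Sup.of_tame h).sq_le (h1.1.smul hu.sm)
    (hcs_bil_left (ContinuousLinearMap.lsmul ℝ ℝ) u h2) x
  rw [Pi.smul_apply', h3 x rfl, one_smul] at this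
  rw [mul_assoc]
  exact this.trans (mul_le_mul_of_nonneg_left (N2_smul h1.1 (h1.2 4) hu) (abs_nonneg _))

theorem SupF.cb (hS : SupF F S) (i : ℕ) : ∀ {u : M → N}, Fl F u →
    cb I F.e i u √(S * N2 F (i + 3) u) := by
  have := hS.1
  induction i with
  | zero => exact fun _ => trivial
  | succ i ih =>
    intro u hu
    refine ⟨fun x => Real.le_sqrt_of_sq_le ((hS.2 _ u hu x).trans ?_), fun a =>
      (ih (fl_D hu a)).mono (Real.sqrt_le_sqrt ?_)⟩
    · gcongr; exact n2_mono (by omega) u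
    · gcongr; exact n2_dv_le (i + 3) u a

theorem SupF.Cb (hS : SupF F S) (hu : Fl F u) : F.Cb u :=
  ⟨_, hu.sm, fun k => CB_iff.2 (hS.cb (k + 1) hu)⟩

theorem SupF.bil (hS : SupF F S) (B : N →L[ℝ] N' →L[ℝ] N'') {k j l : ℕ} (h : Lev k j l)
    {v : M → N'} (hu : Fl F u) (hv : Fl F v) :
    N2 F l (fun x => B (u x) (v x)) ≤ 2 * S * (cK ι l * ‖B‖) ^ 2 * N2 F k u * N2 F j v := by
  obtain ⟨hk, hj, hl⟩ := h
  have := hS.1
  obtain ⟨i, i', hi, h1, h2⟩ : ∃ i i', i + i' = l + 1 ∧ i ≤ k - 3 ∧ i' ≤ j - 3 :=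
    ⟨min (k - 3) (l + 1), l + 1 - min (k - 3) (l + 1), by omega, by omega, by omega⟩
  have c1 : Sob92.cb I F.e i u √(S * N2 F k u) := by
    rcases i with _ | i
    · trivial
    · exact (hS.cb _ hu).mono (Real.sqrt_le_sqrt (by gcongr; exact n2_mono (by omega) u))
  have c2 : Sob92.cb I F.e i' v √(S * N2 F j v) := by
    rcases i' with _ | i'
    · trivial
    · exact (hS.cb _ hv).mono (Real.sqrt_le_sqrt (by gcongr; exact n2_mono (by omega) v))
  have p1 := N2_nn (F := F) k u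
  have p2 := N2_nn (F := F) j v
  have := (n2_bil (μ := F.μ) F.sm B l i i' hi hu.sm hv.sm c1 c2 (fun _ => hu.fl l)
    fun _ => hv.fl l).2
  rw [Real.sq_sqrt (by positivity), Real.sq_sqrt (by positivity)] at this
  have q1 := n2_mono (I := I) (e := F.e) (μ := F.μ) hk u
  have q2 := n2_mono (I := I) (e := F.e) (μ := F.μ) hj v
  refine this.trans ?_
  calc _ ≤ (2 * Fintype.card ι + 3) ^ l * ‖B‖ ^ 2 *
        (S * N2 F k u * N2 F j v + S * N2 F j v * N2 F k u) := by gcongr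
    _ = _ := by rw [mul_pow, cK_sq]; ring

theorem sm_exp {ψ : M → ℝ} (h : Sm I ψ) (σ : ℝ) : Sm I fun x => exp (σ * ψ x) :=
  sm_comp (g := fun t => exp (σ * t)) (by fun_prop) h

theorem D_exp {ψ : M → ℝ} (h : Sm I ψ) (σ : ℝ) (a : ι) (x : M) :
    F.D a (fun x => exp (σ * ψ x)) x = σ * (F.D a ψ x * exp (σ * ψ x)) := by
  refine (dv_comp (md h x) (((hasDerivAt_id' (ψ x)).const_mul σ).exp.hasFDerivAt)).trans ?_
  simp [Pre.D_def]
  ring

theorem CB_exp (σ A : ℝ) (D : ℕ → ℝ) (k : ℕ) : ∃ K, ∀ ψ : M → ℝ, Sm I ψ → (∀ x, σ * ψ x ≤ A) →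
    (∀ a, F.CBs (F.D a ψ) D) → F.CB k (fun x => exp (σ * ψ x)) K := by
  have h0 : ∀ ψ : M → ℝ, (∀ x, σ * ψ x ≤ A) → ∀ x, ‖exp (σ * ψ x)‖ ≤ exp A := fun ψ h x => by
    rw [Real.norm_of_nonneg (exp_pos _).le]; exact exp_le_exp.2 (h x)
  induction k with
  | zero => exact ⟨_, fun ψ _ h _ => CB_zero.2 (h0 ψ h)⟩
  | succ k ih =>
    obtain ⟨K, hK⟩ := ih
    refine ⟨max (exp A) (2 ^ (k + 1) * ‖σ • ContinuousLinearMap.mul ℝ ℝ‖ * |D k| * |K|),
      fun ψ h1 h2 h3 => CB_succ.2 ⟨fun x => (h0 ψ h2 x).trans (le_max_left _ _), fun a => ?_⟩⟩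
    rw [funext (D_exp h1 σ a)]
    exact CB_mono (CB_bil (σ • ContinuousLinearMap.mul ℝ ℝ) (h3 a).1 (sm_exp h1 σ) ((h3 a).2 k)
      (hK ψ h1 h2 h3)) (le_max_right _ _)

variable {ψ : M → ℝ} {d : ℝ} {D : ℕ → ℝ}

theorem fl_exp (h : Wd F ψ d D) (hu : Fl F u) : Fl F fun x => exp (ψ x) • u x := by
  obtain ⟨A, hA⟩ := h.bd
  choose K hK using CB_exp (F := F) 1 A D
  have : F.Cb fun x => exp (1 * ψ x) :=
    ⟨K, sm_exp h.sm 1, fun k => hK k ψ h.sm (by simpa using hA) h.der⟩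
  simp only [one_mul] at this
  exact fl_mul (ContinuousLinearMap.lsmul ℝ ℝ) this hu

/-- the square of the weighted norm -/
def W2 (F : Pre I M ι) (k : ℕ) (ψ : M → ℝ) (u : M → N) : ℝ := N2 F k fun x => exp (ψ x) • u x

theorem W2_nn (k : ℕ) (ψ : M → ℝ) (u : M → N) : 0 ≤ W2 F k ψ u := N2_nn _ _

theorem nw_sq {V : Type} [NormedAddCommGroup V] [InnerProductSpace ℝ V] (k : ℕ) (ψ : M → ℝ)
    (u : M → V) : nw F k ψ u ^ 2 = W2 F k ψ u := nrm_sq _ _

theorem N2_le_W2 (F : Pre I M ι) (D : ℕ → ℝ) (k : ℕ) : ∃ K ≥ 0, ∀ (ψ : M → ℝ) (d : ℝ) (u : M → N),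
    Wd F ψ d D → Fl F u → N2 F k u ≤ K * W2 F k ψ u := by
  obtain ⟨K, hK⟩ := CB_exp (F := F) (-1) 0 D k
  refine ⟨_, sq_nonneg (cK ι k * K), fun ψ d u h hu => ?_⟩
  have := N2_smul (sm_exp h.sm (-1)) (hK ψ h.sm (fun x => by linarith [h.nn x]) h.der) (fl_exp h hu)
  simp only [smul_smul, ← exp_add, neg_mul, one_mul, neg_add_cancel, exp_zero] at this
  simp only [one_smul] at this
  exact this

end fl

variable {T : Type}

/-- the weights of a family -/
structure Ok (F : Pre I M ι) (S : Set T) (ψ : T → M → ℝ) : Prop where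
  sup : ∃ c, SupF F c
  wd : ∃ D, ∀ t ∈ S, ∃ d, Wd F (ψ t) d D

/-- the square of the weighted norm of `f t` is `O(s t)` -/
def Ob (F : Pre I M ι) (S : Set T) (ψ : T → M → ℝ) (k : ℕ) (f : T → M → N) (s : T → ℝ) : Prop :=
  ∃ K ≥ 0, ∀ t ∈ S, Fl F (f t) ∧ W2 F k (ψ t) (f t) ≤ K * s t

variable {F : Pre I M ι} {S S' : Set T} {ψ : T → M → ℝ} {k j l : ℕ} {f g : T → M → N}
  {s s' : T → ℝ}

theorem Ok.sub (h : Ok F S ψ) (hS : S' ⊆ S) : Ok F S' ψ :=
  ⟨h.sup, h.wd.imp fun _ h t ht => h t (hS ht)⟩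

namespace Ob

theorem self (h : ∀ t ∈ S, Fl F (f t)) : Ob F S ψ k f fun t => W2 F k (ψ t) (f t) :=
  ⟨1, zero_le_one, fun t ht => ⟨h t ht, (one_mul _).ge⟩⟩

theorem fl (h : Ob F S ψ k f s) {t : T} (ht : t ∈ S) : Fl F (f t) := (h.choose_spec.2 t ht).1

theorem sub (h : Ob F S ψ k f s) (hS : S' ⊆ S) : Ob F S' ψ k f s :=
  let ⟨K, h0, h⟩ := h; ⟨K, h0, fun t ht => h t (hS ht)⟩

theorem mono (h : Ob F S ψ k f s) (hs : ∀ t ∈ S, s t ≤ s' t) : Ob F S ψ k f s' :=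
  let ⟨K, h0, h⟩ := h
  ⟨K, h0, fun t ht => ⟨(h t ht).1, (h t ht).2.trans (mul_le_mul_of_nonneg_left (hs t ht) h0)⟩⟩

theorem of_le (h : Ob F S ψ k f s) (hj : j ≤ k) : Ob F S ψ j f s :=
  let ⟨K, h0, h⟩ := h
  ⟨K, h0, fun t ht => ⟨(h t ht).1, (n2_mono hj _).trans (h t ht).2⟩⟩

theorem congr (h : Ob F S ψ k f s) (e : ∀ t ∈ S, ∀ x, g t x = f t x) : Ob F S ψ k g s :=
  let ⟨K, h0, h⟩ := h
  ⟨K, h0, fun t ht => funext (e t ht) ▸ h t ht⟩

variable (o : Ok F S ψ)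
include o

theorem add (h : Ob F S ψ k f s) (h' : Ob F S ψ k g s) :
    Ob F S ψ k (fun t x => f t x + g t x) s := by
  obtain ⟨D, hD⟩ := o.wd
  obtain ⟨K, h0, h⟩ := h
  obtain ⟨K', h0', h'⟩ := h'
  refine ⟨2 * K + 2 * K', by positivity, fun t ht => ⟨fl_add (h t ht).1 (h' t ht).1, ?_⟩⟩
  obtain ⟨d, w⟩ := hD t ht
  have := N2_add k (fl_exp w (h t ht).1) (fl_exp w (h' t ht).1)
  have a := (h t ht).2
  have b := (h' t ht).2
  simp only [W2, smul_add] at a b ⊢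
  linarith

theorem mul (B : N' →L[ℝ] N →L[ℝ] N'') {c : M → N'} (hc : F.Cb c) (h : Ob F S ψ k f s) :
    Ob F S ψ k (fun t x => B (c x) (f t x)) s := by
  obtain ⟨D, hD⟩ := o.wd
  obtain ⟨K, h0, h⟩ := h
  obtain ⟨C, c1, c2⟩ := id hc
  refine ⟨(cK ι k * ‖B‖ * C k) ^ 2 * K, by positivity, fun t ht => ⟨fl_mul B hc (h t ht).1, ?_⟩⟩
  obtain ⟨d, w⟩ := hD t ht
  have e := fl_exp w (h t ht).1
  have := (N2_mul B c1 e.sm (c2 k) (e.fl k)).2
  simp only [map_smul] at this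
  rw [mul_assoc]
  exact this.trans (mul_le_mul_of_nonneg_left (h t ht).2 (sq_nonneg _))

theorem clm (L : N →L[ℝ] N') (h : Ob F S ψ k f s) : Ob F S ψ k (fun t x => L (f t x)) s :=
  mul o (ContinuousLinearMap.id ℝ (N →L[ℝ] N')) (Cb_const L) h

theorem neg (h : Ob F S ψ k f s) : Ob F S ψ k (fun t x => -f t x) s :=
  clm o (-ContinuousLinearMap.id ℝ N) h

theorem sub' (h : Ob F S ψ k f s) (h' : Ob F S ψ k g s) :
    Ob F S ψ k (fun t x => f t x - g t x) s :=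
  (add o h (neg o h')).congr fun _ _ _ => sub_eq_add_neg _ _

theorem bil (B : N →L[ℝ] N' →L[ℝ] N'') (hl : Lev k j l) {g : T → M → N'} (h : Ob F S ψ k f s)
    (h' : Ob F S ψ j g s') : Ob F S ψ l (fun t x => B (f t x) (g t x)) fun t => s t * s' t := by
  obtain ⟨c, hc⟩ := o.sup
  obtain ⟨D, hD⟩ := o.wd
  obtain ⟨K, h0, h⟩ := h
  obtain ⟨K', h0', h'⟩ := h'
  obtain ⟨L, l0, hL⟩ := N2_le_W2 (N := N') F D j
  have := hc.1
  refine ⟨2 * c * (cK ι l * ‖B‖) ^ 2 * K * (L * K'), by positivity,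
    fun t ht => ⟨fl_mul B (hc.Cb (h t ht).1) (h' t ht).1, ?_⟩⟩
  obtain ⟨d, w⟩ := hD t ht
  have a := hc.bil B hl (fl_exp w (h t ht).1) (h' t ht).1
  simp only [map_smul, smul_apply] at a
  have b := (hL _ d _ w (h' t ht).1).trans (mul_le_mul_of_nonneg_left (h' t ht).2 l0)
  have b' := (h t ht).2
  have p := (W2_nn _ _ _).trans b'
  have p' := N2_nn (F := F) j (g t)
  calc _ ≤ _ := a
    _ ≤ 2 * c * (cK ι l * ‖B‖) ^ 2 * (K * s t) * (L * (K' * s' t)) := by gcongr; exact b'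
    _ = _ := by ring

theorem D (h : Ob F S ψ (k + 1) f s) (a : ι) : Ob F S ψ k (fun t => F.D a (f t)) s := by
  obtain ⟨D, hD⟩ := o.wd
  obtain ⟨K, h0, h⟩ := h
  let B : ℝ →L[ℝ] N →L[ℝ] N := -ContinuousLinearMap.lsmul ℝ ℝ
  refine ⟨(2 + 2 * (cK ι k * ‖B‖ * D k) ^ 2) * K, by positivity,
    fun t ht => ⟨fl_D (h t ht).1 a, ?_⟩⟩
  obtain ⟨d, w⟩ := hD t ht
  have e := fl_exp w (h t ht).1
  have a1 := N2_add k (fl_D e a) (fl_mul B ⟨_, w.der a⟩ e)
  have a2 := (N2_mul B (w.der a).1 e.sm ((w.der a).2 k) (e.fl k)).2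
  have a3 : N2 F k (F.D a fun x => exp (ψ t x) • f t x) ≤ K * s t :=
    (n2_dv_le k _ a).trans (h t ht).2
  have a4 := mul_le_mul_of_nonneg_left ((n2_le_succ k _).trans (h t ht).2)
    (sq_nonneg (cK ι k * ‖B‖ * D k))
  have e1 : (fun x => exp (ψ t x) • F.D a (f t) x) = fun x =>
      F.D a (fun x => exp (ψ t x) • f t x) x + B (F.D a (ψ t) x) (exp (ψ t x) • f t x) := by
    funext x
    have b1 := sm_exp w.sm 1
    have b2 := D_exp (F := F) w.sm 1 a x
    simp only [one_mul, Pre.D_def] at b1 b2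
    simp only [Pre.D_def, dv_smul (md b1 x) (md (h t ht).1.sm x), b2, B, mul_smul,
      neg_apply, ContinuousLinearMap.lsmul_apply]
    abel
  rw [W2, e1]
  linarith

theorem nab {A : ι → M → N →L[ℝ] N} {a : ι} (hA : F.Cb (A a)) (h : Ob F S ψ (k + 1) f s) :
    Ob F S ψ k (fun t => Wz78.nab I F.e A a (f t)) s :=
  add o (D o h a) (mul o (ContinuousLinearMap.id ℝ (N →L[ℝ] N)) hA (h.of_le k.le_succ))

theorem lp {V α : Type} [NormedAddCommGroup V] [InnerProductSpace ℝ V] [Fintype α]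
    {v : α → T → M → V} (h : ∀ a, Ob F S ψ k (v a) s) :
    Ob F S ψ k (fun t x => (WithLp.toLp 2 fun a => v a t x : Fm α V)) s := by
  classical
  have key : ∀ J : Finset α, Ob F S ψ k (fun t x => ∑ a ∈ J, Map77.ij V a (v a t x)) s := by
    intro J
    induction J using Finset.induction_on with
    | empty =>
      refine ⟨0, le_rfl, fun t _ => ⟨⟨by simpa using contMDiff_const, fun k => ?_⟩, ?_⟩⟩
      · exact FL_of_hcs k (by simpa using contMDiff_const) (by simp only [Finset.sum_empty]; exact HasCompactSupport.zero)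
      · have := n2_clm_le (μ := F.μ) F.sm (0 : ℝ →L[ℝ] Fm α V) k (u := fun _ => 0) contMDiff_const
          (FL_of_hcs k contMDiff_const HasCompactSupport.zero)
        simpa [W2] using this
    | insert a J ha ih =>
      exact (add o (clm o (Map77.ij V a) (h a)) ih).congr fun _ _ _ => Finset.sum_insert ha
  exact (key Finset.univ).congr fun t _ x => Map77.fm_ext fun a => (Map77.sum_ij _ a).symm

end Ob

end Crest.Agent.X212.Cay24
end
end

-- ▼ part X212/Cay24/Alg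

/-!
# Row 212, DEC / CAY (helper24): the Cayley transform as a gauge transformation
-/

set_option autoImplicit false
set_option linter.unusedSectionVars false
noncomputable section
open scoped Manifold ContDiff Topology InnerProductSpace
open MeasureTheory Set Function Filter Real

namespace Crest.Agent.X212.Cay24
open An Map77 Sob92 Dec35
open Wz78 (nab nabE SA g_p g_p' g_skw g_J g_ρ g_j opL_hsL hsL_opL)

section alg
variable {κ : Type} [Fintype κ] [DecidableEq κ] {p S : En κ} {ξ : HS κ}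

/-- the scalar of the Cayley transform -/
def yy (ξ : HS κ) : ℝ := (1 + ‖ξ‖ ^ 2 / 64)⁻¹ - 1
/-- the quadratic part of the Cayley transform -/
def ee (p : En κ) (ξ : HS κ) : En κ := yy ξ • ((2 : ℝ) • p + opL ξ)
/-- the Cayley transform minus the identity -/
def EE (p : En κ) (ξ : HS κ) : En κ := opL ξ + ee p ξ
/-- the Cayley transform -/
def gg (p : En κ) (ξ : HS κ) : En κ := p + EE p ξ

theorem yy_neg (ξ : HS κ) : yy (-ξ) = yy ξ := by rw [yy, norm_neg, yy]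

theorem yy_mul (ξ : HS κ) : (yy ξ + 1) * (1 + ‖ξ‖ ^ 2 / 64) = 1 := by
  rw [yy, sub_add_cancel]; exact inv_mul_cancel₀ (by positivity)

theorem cd_yy : ContDiff ℝ ∞ (yy (κ := κ)) :=
  ((contDiff_const.add ((contDiff_norm_sq ℝ).div_const _)).inv fun _ => by positivity).sub
    contDiff_const

theorem gg_eq (p : En κ) (ξ : HS κ) : gg p ξ = (2 * yy ξ + 1) • p + (yy ξ + 1) • opL ξ := by
  rw [gg, EE, ee]; module

theorem gg_mul (hp : p * p = p) (h1 : p * opL ξ = opL ξ) (h2 : opL ξ * p = opL ξ)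
    (h3 : opL ξ * opL ξ = (-‖ξ‖ ^ 2 / 16) • p) : gg p ξ * gg p (-ξ) = p := by
  have := yy_mul ξ
  simp only [gg_eq, yy_neg, map_neg, add_mul, mul_add, smul_mul_assoc, mul_smul_comm, mul_neg, hp,
    h1, h2, h3]
  match_scalars
  · linear_combination (4 * (yy ξ + 1)) * this
  · ring

theorem comm_gg (h1 : Commute S p) (h2 : Commute S (opL ξ)) : Commute S (gg p ξ) :=
  gg_eq p ξ ▸ (h1.smul_right _).add_right (h2.smul_right _)

theorem trn_gg (hp : Sym p) (h : Skw (opL ξ)) : trn (gg p ξ) = gg p (-ξ) := by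
  have e : ∀ T : En κ, trn T = Eqv71.trnL T := fun _ => rfl
  rw [gg_eq, gg_eq, e, map_add, map_smul, map_smul, ← e, ← e, Wz78.Sym.trn hp, Wz78.Skw.trn h,
    yy_neg, map_neg]

end alg

variable {E : Type} [NormedAddCommGroup E] [NormedSpace ℝ E] [FiniteDimensional ℝ E]
  [MeasurableSpace E] [BorelSpace E]
  {HM : Type} [TopologicalSpace HM] {I : ModelWithCorners ℝ E HM} [I.Boundaryless]
  {M : Type} [TopologicalSpace M] [ChartedSpace HM M] [IsManifold I ∞ M] [MeasurableSpace M]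
  [T2Space M] [BorelSpace M] [SecondCountableTopology M] {ι : Type} [Fintype ι]
  {lam : Type} [Fintype lam] {r : ℕ}

theorem con_ad {V : Type} [NormedAddCommGroup V] [NormedSpace ℝ V] {P : ι → ι → M → ℝ}
    {A : ι → M → V →L[ℝ] V} (h : Wz78.Con I P A) : Wz78.Con I P fun a y => Wz78.ad V (A a y) :=
  ⟨fun a x => SA.clm _ (h.sm a x), fun a x => by simp only [← map_smul, ← map_sum, h.proj]⟩

section defs
variable (F : Fr I M ι) (c : Cfg M ι lam r) (ξ : M → c.m.A) (u : M → Cv c)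

/-- the gauge transformation -/
abbrev ga (x : M) : En (Fin c.m.N) := gg (c.m.p x) (ξ x)
/-- its inverse -/
abbrev gb (x : M) : En (Fin c.m.N) := gg (c.m.p x) (-ξ x)

/-- the new connection form -/
def TT (a : ι) (x : M) : En (Fin c.m.N) :=
  ga c ξ x * oa a (u x) * gb c ξ x - nabE I F.e c.W a (ga c ξ) x * gb c ξ x

/-- the transformed variation -/
def uu : M → Cv c := base (TT F c ξ u) fun x => ga c ξ x (c.Φ x + fp (u x)) - c.Φ x

/-- the quadratic remainder -/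
def RR : M → Cv c := base
  (fun a x => EE (c.m.p x) (ξ x) * oa a (u x) + oa a (u x) * EE (c.m.p x) (-ξ x)
    + EE (c.m.p x) (ξ x) * oa a (u x) * EE (c.m.p x) (-ξ x)
    - nabE I F.e c.W a (fun y => ee (c.m.p y) (ξ y)) x
    - nabE I F.e c.W a (fun y => EE (c.m.p y) (ξ y)) x * EE (c.m.p x) (-ξ x))
  fun x => ee (c.m.p x) (ξ x) (c.Φ x) + EE (c.m.p x) (ξ x) (fp (u x))

end defs

variable {B : Base M ι lam} {G : Geo I M ι lam} {c : Cfg M ι lam r} {ξ : M → c.m.A} {u : M → Cv c}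

theorem tg_iff : Tg B c u ↔ (∀ x a, fa (u x) a ∈ c.m.gS x) ∧
    (∀ x a, ∑ b, B.P a b x • fa (u x) b = fa (u x) a) ∧
      ∀ x, c.m.pp B x (fp (u x)) = fp (u x) := by
  constructor
  · intro h
    have h1 : ∀ x, c.m.p1 B x (fa (u x)) = fa (u x) := fun x => maps_f2 x _ (h x)
    have h2 : ∀ x a, fa (u x) a ∈ c.m.gS x := fun x a => h1 x ▸ Wz78.p1_mem _ a
    refine ⟨h2, fun x a => ?_, fun x => maps_s2 x _ (h x)⟩
    conv_rhs => rw [← h1 x]
    simp only [Md.p1, Wz78.idx_apply, Wz78.pg_of_mem (h2 x _)]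
  · refine fun ⟨h1, h2, h3⟩ x => ext2 ((f2_ps ..).trans (fm_ext fun a => ?_)) ((s2_ps ..).trans (h3 x))
    simp only [mbd, Md.p1, Wz78.idx_apply, Wz78.pg_of_mem (h1 x _), h2]

variable (hB : B.OK I) (hG : G.OK B) (hc : c.Adm B G) (hs : Sm I ξ) (hξ : ∀ x, ξ x ∈ c.m.gS x)

include hc hs in
theorem sa_ee (x : M) : SA I (fun y => ee (c.m.p y) (ξ y)) x :=
  SA.smul (sm_comp cd_yy hs x) ((SA.smul contMDiffAt_const (hc.ok.sp x)).add (SA.clm opL (hs x)))

include hc hs in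
theorem sa_EE (x : M) : SA I (fun y => EE (c.m.p y) (ξ y)) x :=
  (SA.clm opL (hs x)).add (sa_ee hc hs x)

include hc hs in
theorem sa_ga (x : M) : SA I (ga c ξ) x := (hc.ok.sp x).add (sa_EE hc hs x)

include hc hs in
theorem nab_ga (a : ι) (x : M) : nabE I G.F.e c.W a (ga c ξ) x =
    nabE I G.F.e c.W a (fun y => EE (c.m.p y) (ξ y)) x :=
  (Wz78.nabE_add a (hc.ok.sp x) (sa_EE hc hs x)).trans (by
    rw [show nabE I G.F.e c.W a c.m.p x = 0 from hc.conn.cc.par a x, zero_add])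

include hc hs in
theorem nab_EE (a : ι) (x : M) : nabE I G.F.e c.W a (fun y => EE (c.m.p y) (ξ y)) x =
    opL (nab I G.F.e (c.m.adW c.W) a ξ x) + nabE I G.F.e c.W a (fun y => ee (c.m.p y) (ξ y)) x :=
  (Wz78.nabE_add a (SA.clm opL (hs x)) (sa_ee hc hs x)).trans (by rw [Wz78.opL_nab a (hs x)])

include hc hs in
theorem nab_ee (a : ι) (x : M) : nabE I G.F.e c.W a (fun y => ee (c.m.p y) (ξ y)) x =
    G.F.D a (fun y => yy (ξ y)) x • ((2 : ℝ) • c.m.p x + opL (ξ x))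
      + yy (ξ x) • opL (nab I G.F.e (c.m.adW c.W) a ξ x) := by
  have h := SA.smul (f := fun _ => (2 : ℝ)) contMDiffAt_const (hc.ok.sp x)
  refine (Wz78.nabE_smul (T := fun y => (2 : ℝ) • c.m.p y + opL (ξ y)) a (sm_comp cd_yy hs x)
    (h.add (SA.clm opL (hs x)))).trans ?_
  rw [Wz78.nabE_add a h (SA.clm opL (hs x)), Wz78.nabE_smul a contMDiffAt_const (hc.ok.sp x),
    show nabE I G.F.e c.W a c.m.p x = 0 from hc.conn.cc.par a x, Wz78.opL_nab a (hs x)]
  simp [Pre.D_def]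

include hc in
theorem p_g {x : M} {η : c.m.A} (h : η ∈ c.m.gS x) : Commute (c.m.p x) (opL η) :=
  (g_p h).trans (g_p' hc.ok h).symm

include hc in
theorem p_gg {x : M} {η : c.m.A} (h : η ∈ c.m.gS x) :
    c.m.p x * gg (c.m.p x) η = gg (c.m.p x) η := by
  simp only [gg_eq, mul_add, mul_smul_comm, hc.ok.pidem, g_p h]

include hc in
theorem gg_p {x : M} {η : c.m.A} (h : η ∈ c.m.gS x) :
    gg (c.m.p x) η * c.m.p x = gg (c.m.p x) η :=
  (comm_gg (Commute.refl _) (p_g hc h)).symm.eq.trans (p_gg hc h)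

include hB hc in
theorem gg_gg {x : M} {η : c.m.A} (h : η ∈ c.m.gS x) :
    gg (c.m.p x) η * gg (c.m.p x) (-η) = c.m.p x :=
  gg_mul (hc.ok.pidem x) (g_p h) (g_p' hc.ok h) (Abel74.g_sq hB hc.ok h)

include hB hc in
theorem gg_gg' {x : M} {η : c.m.A} (h : η ∈ c.m.gS x) :
    gg (c.m.p x) (-η) * gg (c.m.p x) η = c.m.p x := by
  simpa only [neg_neg] using gg_gg hB hc (neg_mem h)

include hc hs hξ in
theorem nab_p (a : ι) (x : M) :
    nabE I G.F.e c.W a (ga c ξ) x * c.m.p x = nabE I G.F.e c.W a (ga c ξ) x := by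
  have := Wz78.nabE_mul (e := G.F.e) (A := c.W) a (sa_ga hc hs x) (hc.ok.sp x)
  simp only [gg_p hc (hξ _)] at this
  rw [show nabE I G.F.e c.W a c.m.p x = 0 from hc.conn.cc.par a x, mul_zero, add_zero] at this
  exact this.symm

include hc hs hξ in
theorem comm_TT (hu : Tg B c u) (a : ι) {x : M} {S : En (Fin c.m.N)} (h1 : Commute S (c.m.p x))
    (h2 : ∀ η ∈ c.m.gS x, Commute S (opL η)) : Commute S (TT G.F c ξ u a x) := by
  have h3 := comm_gg h1 (h2 _ (neg_mem (hξ x)))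
  have h4 := h2 _ (Wz78.nab_mem_g hc.ok hc.conn a (hs x) hξ)
  refine (((comm_gg h1 (h2 _ (hξ x))).mul_right (h2 _ ((tg_iff.1 hu).1 x a))).mul_right h3).sub_right
    (Commute.mul_right ?_ h3)
  rw [nab_ga hc hs, nab_EE hc hs, nab_ee hc hs]
  exact h4.add_right ((((h1.smul_right _).add_right (h2 _ (hξ x))).smul_right _).add_right
    (h4.smul_right _))

include hB hc hs hξ in
theorem TT_mem (hu : Tg B c u) (a : ι) (x : M) : hsL (TT G.F c ξ u a x) ∈ c.m.gS x := by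
  have H := hc.ok
  refine Wz78.mem_g (Eqv71.skw_of_trn ?_) ?_ (comm_TT hc hs hξ hu a (H.Jp x) fun _ => g_J)
    (fun b => comm_TT hc hs hξ hu a (((H.cl x).pr b).trans ((H.cl x).pl b).symm) fun _ h => g_ρ h b)
    fun s => comm_TT hc hs hξ hu a ?_ fun _ h => g_j h s
  · have e : ∀ T : En (Fin c.m.N), trn T = Eqv71.trnL T := fun _ => rfl
    have t1 : ∀ y, trn (ga c ξ y) = gb c ξ y := fun y => trn_gg (H.psym y) (g_skw (hξ y))
    have t2 : trn (gb c ξ x) = ga c ξ x := by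
      simpa only [neg_neg] using trn_gg (H.psym x) (g_skw (neg_mem (hξ x)))
    have t3 : nabE I G.F.e c.W a (gb c ξ) x = trn (nabE I G.F.e c.W a (ga c ξ) x) := by
      rw [← funext t1]
      refine Wz78.nab_map (A := fun a y => Wz78.ad _ (c.W a y)) (A' := fun a y => Wz78.ad _ (c.W a y))
        Eqv71.trnL a ?_ (sa_ga hc hs x)
      change c.W a x * trn (ga c ξ x) - trn (ga c ξ x) * c.W a x =
        Eqv71.trnL (c.W a x * ga c ξ x - ga c ξ x * c.W a x)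
      rw [map_sub, ← e, ← e, Wz78.trn_mul, Wz78.trn_mul, Wz78.Skw.trn (hc.conn.sk a x)]
      noncomm_ring
    have t4 := Wz78.nabE_mul (e := G.F.e) (A := c.W) a (sa_ga hc hs x) (sa_ga hc hs.neg x)
    simp only [gg_gg hB hc (hξ _)] at t4
    rw [show nabE I G.F.e c.W a c.m.p x = 0 from hc.conn.cc.par a x] at t4
    rw [TT, e, map_sub, ← e, ← e, Wz78.trn_mul, Wz78.trn_mul, Wz78.trn_mul, t1, t2, ← t3,
      oa_apply, Wz78.Skw.trn (g_skw ((tg_iff.1 hu).1 x a)), eq_neg_of_add_eq_zero_left t4.symm]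
    noncomm_ring
  · rw [(comm_TT hc hs hξ hu a (Commute.refl _) fun _ => p_g hc).eq, TT, sub_mul, mul_assoc,
      mul_assoc _ (gb c ξ x), gg_p hc (neg_mem (hξ x))]
  · have := congrArg trn (H.pj x s)
    rw [Wz78.trn_mul, Wz78.Sym.trn (H.jsym x s), Wz78.Sym.trn (H.psym x)] at this
    exact this.trans (H.pj x s).symm

include hc hξ in
theorem ga_pp (x : M) : ga c ξ x * c.m.pp B x = c.m.pp B x * ga c ξ x :=
  (comm_gg ((Wz78.pp_p hc.ok x).trans (Wz78.p_pp hc.ok x).symm)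
    (Wz78.g_pp hc.ok (hξ x)).symm).symm

include hB hG hc hs hξ in
theorem tg_uu (hu : Tg B c u) : Tg B c (uu G.F c ξ u) := by
  obtain ⟨h1, h2, h3⟩ := tg_iff.1 hu
  refine tg_iff.2 ⟨fun x a => ?_, fun x a => ?_, fun x => ?_⟩
  · rw [uu, fa_base]; exact TT_mem hB hc hs hξ hu a x
  · have k1 := congrArg opL (h2 x a)
    have k2 : ∑ b, B.P a b x • nabE I G.F.e c.W b (ga c ξ) x = nabE I G.F.e c.W a (ga c ξ) x :=
      (Wz78.gfrm hG).projN (con_ad hc.conn.cc.toCon) a _ x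
    simp only [map_sum, map_smul] at k1
    simp only [uu, fa_base, ← map_smul, ← map_sum, TT, smul_sub, Finset.sum_sub_distrib, oa_apply]
    congr 2
    · conv_rhs => rw [← k1]
      simp only [Finset.mul_sum, Finset.sum_mul, mul_smul_comm, smul_mul_assoc]
    · conv_rhs => rw [← k2]
      simp only [Finset.sum_mul, smul_mul_assoc]
  · rw [uu, fp_base, map_sub, hc.pos, ← mul_apply_eq_comp, ← ga_pp hc hξ,
      mul_apply_eq_comp, map_add, hc.pos, h3]

include hB hc hs hξ in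
theorem eq0_uu (hu : Tg B c u) : Tmp64.Eq0 G.F (cf c u) (cf c (uu G.F c ξ u)) univ (ga c ξ) := by
  have H := hc.ok
  have t1 : ∀ y, Pj41.ad (ga c ξ y) = gb c ξ y := fun y =>
    (Pj41.ad_trn _).trans (trn_gg (H.psym y) (g_skw (hξ y)))
  refine ⟨⟨fun x _ => sa_ga hc hs x, fun x _ => ⟨?_, ?_, gg_p hc (hξ x)⟩,
    fun x _ => comm_gg (H.Jp x) (g_J (hξ x)),
    fun x _ b => comm_gg (((H.cl x).pr b).trans ((H.cl x).pl b).symm) (g_ρ (hξ x) b),
    fun x _ s => comm_gg ?_ (g_j (hξ x) s)⟩, fun x _ a => ?_, fun x _ => ?_, rfl⟩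
  · exact (congrArg (· ∘L ga c ξ x) (t1 x)).trans (gg_gg' hB hc (hξ x))
  · exact (congrArg (ga c ξ x ∘L ·) (t1 x)).trans (gg_gg hB hc (hξ x))
  · have := congrArg trn (H.pj x s)
    rw [Wz78.trn_mul, Wz78.Sym.trn (H.jsym x s), Wz78.Sym.trn (H.psym x)] at this
    exact this.trans (H.pj x s).symm
  · change G.F.D a (ga c ξ) x + (c.W a x + oa a (uu G.F c ξ u x)) * ga c ξ x
      - ga c ξ x * (c.W a x + oa a (u x)) = 0
    have k : TT G.F c ξ u a x * ga c ξ x = ga c ξ x * oa a (u x) - nabE I G.F.e c.W a (ga c ξ) x := by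
      rw [TT, sub_mul, mul_assoc _ (gb c ξ x), mul_assoc _ (gb c ξ x), gg_gg' hB hc (hξ x),
        nab_p hc hs hξ, mul_assoc, oa_apply, g_p' H ((tg_iff.1 hu).1 x a)]
    rw [uu, oa_base, add_mul, k, nabE, Pre.D_def]
    noncomm_ring
  · change c.Φ x + fp (uu G.F c ξ u x) = ga c ξ x (c.Φ x + fp (u x))
    rw [uu, fp_base, add_sub_cancel]

include hc hs hξ in
theorem uu_sub (hu : Tg B c u) (x : M) :
    uu G.F c ξ u x - u x - dg G.F c 1 ξ x = RR G.F c ξ u x := by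
  obtain ⟨h1, -, h3⟩ := tg_iff.1 hu
  refine ext2 (fm_ext fun a => Wz78.opL_inj ?_) ?_
  · have k := nab_p hc hs hξ a x
    have k1 := g_p (h1 x a)
    have k2 := g_p' hc.ok (h1 x a)
    simp only [uu, RR, dg, map_sub, map_add, PiLp.sub_apply, fa_base, f2_i1, f2_i2, add_zero,
      opL_hsL, map_neg, TT, oa_apply]
    rw [show gb c ξ x = _ + _ from rfl, mul_add (nabE I G.F.e c.W a (ga c ξ) x), k, nab_ga hc hs,
      show ga c ξ x = _ + _ from rfl]
    simp only [add_mul, mul_add, k1, k2, mul_assoc]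
    conv_lhs => rw [nab_EE hc hs]
    conv_rhs => rw [nab_EE hc hs]
    abel
  · have k : ∀ v, c.m.pp B x v = v → c.m.p x v = v := fun v h => by
      rw [← h, ← mul_apply_eq_comp, Wz78.p_pp hc.ok]
    simp only [uu, RR, dg, map_sub, map_add, fp_base, s2_i1, s2_i2, zero_add, one_smul, ga, gg,
      add_apply, k _ (hc.pos x), k _ (h3 x)]
    rw [EE, add_apply]
    abel

end Crest.Agent.X212.Cay24
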