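import Crest.Agent.X212.Top36.Cw
import Crest.Agent.X212.Num57.Dn
import Crest.Agent.X212.Nka63.B
import Crest.Agent.X212.Std94.Smo
import Crest.Agent.X212.Wz78.Par
import Crest.Agent.X212.Pj41.Cm
import Crest.Agent.X212.Prm93.H
import Mathlib.Analysis.SpecialFunctions.ImproperIntegrals

/-!
# Row 212, GL-LEV (helper24): the level as a Chern-Weil integral; decaying changes
-/

set_option autoImplicit false
set_option linter.unusedSectionVars false
noncomputable section
open scoped Manifold ContDiff Topology InnerProductSpace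
open MeasureTheory Set Function Filter

namespace Crest.Agent.X212.Cay24
open An Sob92 Wz78 Num57 Int54
open Top36 (trC cwd_def cw_int bdd)
open Pj41 (FRel)
open Crest.Agent.R208.F (Ext)

variable {E : Type} [NormedAddCommGroup E] [NormedSpace ℝ E] [FiniteDimensional ℝ E]
  [MeasurableSpace E] [BorelSpace E]
  {HM : Type} [TopologicalSpace HM] {I : ModelWithCorners ℝ E HM} [I.Boundaryless]
  {M : Type} [TopologicalSpace M] [ChartedSpace HM M] [IsManifold I ∞ M] [T2Space M]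
  [MeasurableSpace M] [BorelSpace M] [SecondCountableTopology M] {ι : Type} [Fintype ι]
  {E' : Type} [NormedAddCommGroup E'] [NormedSpace ℝ E'] [FiniteDimensional ℝ E']
  [MeasurableSpace E'] [BorelSpace E']
  {HM' : Type} [TopologicalSpace HM'] {I' : ModelWithCorners ℝ E' HM'} [I'.Boundaryless]
  {M' : Type} [TopologicalSpace M'] [ChartedSpace HM' M'] [IsManifold I' ∞ M'] [T2Space M']
  [MeasurableSpace M'] [BorelSpace M'] [SecondCountableTopology M']
  {V : Type} [NormedAddCommGroup V] [NormedSpace ℝ V] [FiniteDimensional ℝ V]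
  {N : Type} [NormedAddCommGroup N] [NormedSpace ℝ N]

theorem trC_comm (S T : V →L[ℝ] V) : trC (S * T) = trC (T * S) :=
  LinearMap.trace_mul_comm ℝ (S : V →ₗ[ℝ] V) T

section pg
variable {lam : Type} [Fintype lam] {m : Md M ι lam} {B : Base M ι lam} {G : Geo I M ι lam}
  {W : m.Cn} {x : M} (hB : B.OK I) (hG : G.OK B) (H : m.OK I B) (C : m.IsConn B G W)
include hB H

theorem trC_pg (x : M) : trC (m.pg x) = 3 := by
  have := (⟨pg_mem x, fun _ => pg_of_mem⟩ : LinearMap.IsProj (m.gS x) (m.pg x : _ →ₗ[ℝ] _)).trace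
  rw [Std94.finrank_g hB (Std94.pmx H x)] at this
  exact this.trans (by norm_num)

theorem kil {ξ η : m.A} (hξ : ξ ∈ m.gS x) (hη : η ∈ m.gS x) :
    trC (adc (opL ξ) * adc (opL η) * m.pg x) = -⟪ξ, η⟫_ℝ / 2 := by
  have h1 : ∀ ξ ∈ m.gS x, trC (adc (opL ξ) * adc (opL ξ) * m.pg x) = -⟪ξ, ξ⟫_ℝ / 2 := fun ξ hξ => by
    have : adc (opL ξ) * adc (opL ξ) * m.pg x =
        (1 / 4 : ℝ) • (innerSL ℝ ξ).smulRight ξ - (⟪ξ, ξ⟫_ℝ / 4) • m.pg x := by
      ext1 ζ
      simp only [mul_apply_eq_comp, Std94.adc_adc hB (Std94.pmx H x) hξ (pg_mem x ζ), sub_apply,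
        smul_apply, ContinuousLinearMap.smulRight_apply, innerSL_apply_apply, ← inner_pg,
        pg_of_mem hξ, real_inner_self_eq_norm_sq]
      module
    rw [this, map_sub, map_smul, map_smul, trC_pg hB H, show trC ((innerSL ℝ ξ).smulRight ξ) =
      ⟪ξ, ξ⟫_ℝ from LinearMap.trace_smulRight _ _, smul_eq_mul, smul_eq_mul]
    ring
  have h2 : trC (adc (opL η) * adc (opL ξ) * m.pg x) = trC (adc (opL ξ) * adc (opL η) * m.pg x) := by
    rw [mul_assoc, trC_comm, mul_assoc, mul_assoc,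
      show m.pg x * adc (opL η) = adc (opL η) * m.pg x from ContinuousLinearMap.ext (pg_adc hη)]
  have h3 := h1 _ (add_mem hξ hη)
  simp only [← adcL_apply, map_add, add_mul, mul_add] at h3
  simp only [adcL_apply, h1 ξ hξ, h1 η hη, h2, inner_add_left, inner_add_right,
    real_inner_comm ξ η] at h3
  linarith

include hG C

/-- the density of the level -/
theorem cwd_pg (x : M) :
    cwd G.F B.o m.pg (m.adW W) x = 128 * Real.pi ^ 2 * m.kd B G.F W x := by
  have h : ∀ a b c d, trC (m.pg x * curv I G.F.e G.F.c (m.adW W) a b x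
      * curv I G.F.e G.F.c (m.adW W) c d x)
      = -(1 / 2) * ⟪m.Fg G.F W x (a, b), m.Fg G.F W x (c, d)⟫_ℝ := fun a b c d => by
    rw [mul_assoc, trC_comm, neg_mul, one_div, ← div_eq_inv_mul, ← neg_div,
      ← kil hB H (Fg_mem _ _) (Fg_mem _ _)]
    congr 1
    ext1 ζ
    simp only [mul_apply_eq_comp, curv_adW_g hB hG H C _ _ (pg_mem x ζ),
      curv_adW_g hB hG H C _ _ (adc_mem (Fg_mem _ _) (pg_mem x ζ))]
  rw [cwd_def, Md.kd, PiLp.inner_apply]
  simp only [h, Wz78.idx_apply, ContinuousLinearMap.id_apply, inner_sum, real_inner_smul_right,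
    Base.st, Fintype.sum_prod_type, div_mul_eq_mul_div _ (2 : ℝ), ← Finset.sum_div,
    mul_left_comm _ (-(1 / 2) : ℝ), ← Finset.mul_sum]
  field_simp

theorem kap_cwd : 128 * Real.pi ^ 2 * m.kap B G.F W = ∫ x, cwd G.F B.o m.pg (m.adW W) x ∂G.F.μ := by
  rw [Md.kap, ← integral_const_mul]
  exact integral_congr_ae (.of_forall fun x => (cwd_pg hB hG H C x).symm)

/-- on a closed manifold the level depends on the module and the orientation only -/
theorem kap_ov [CompactSpace M] (h4 : Module.finrank ℝ E = 4) {v : M → Ext E} (hv : Ori I v)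
    (ho : B.o = oc G.F.e (volF v G.F.e)) :
    128 * Real.pi ^ 2 * m.kap B G.F W = 4 * cw I v (f0 E m.pg) := by
  have k := OK.of_base h4 hB hG
  have s : SameOn (vol G.F B.o) v univ := ho ▸ (sameOn_vol_oc G.F h4 (hv.unit_vol G.F.toPre)).trans
    (hv.sameOn_volF (pre_sp G.F.toPre) _).symm
  rw [kap_cwd hB hG H C, integral_cwd G.F h4 k.isv k.sm k.vo' (hG.P ▸ con_adW C)
    (Std94.sm_pg hB H) (pg_par H C (Std94.sm_pg hB H)), cw_ori k.ori hv s]

end pg

/-- naturality of the density -/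
theorem cwd_rel {F : Fr I M ι} {F' : Fr I' M' ι} {ψ : M → M'} {O : Set M} (h : FRel F F' ψ O)
    {x : M} (hx : x ∈ O) {o o'} (ho : ∀ a b c d, o a b c d x = o' a b c d (ψ x))
    {T : M → V →L[ℝ] V} {T' : M' → V →L[ℝ] V} (hT : T x = T' (ψ x)) {A : ι → M → V →L[ℝ] V}
    {A' : ι → M' → V →L[ℝ] V} (hA : ∀ a, ∀ᶠ y in 𝓝 x, A a y = A' a (ψ y)) :
    cwd F o T A x = cwd F' o' T' A' (ψ x) := by
  simp only [cwd, ho, hT, h.curv hx hA]

section dec
variable {F : Pre I M ι} {O : Set M} (hO : IsOpen O) {g : M → ℝ}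
include hO

theorem sm_cut {f : M → ℝ} (hf : Sm I f) (s : tsupport f ⊆ O) {v : M → N}
    (hv : ∀ x ∈ O, SA I v x) : Sm I fun x => f x • v x := fun x => by
  by_cases hx : x ∈ tsupport f
  · exact SA.smul (hf x) (hv x (s hx))
  · exact (contMDiffAt_const (c := 0)).congr_of_eventuallyEq
      ((notMem_tsupport_iff_eventuallyEq.1 hx).mono fun y hy => by simp [hy])

theorem dw_cut (hg : ∀ x, 0 ≤ g x) (w : List ι) : ∀ {f : M → ℝ} {v : M → N}, F.Cb f →
    tsupport f ⊆ O → (∀ x ∈ O, SA I v x) → (∀ w, ∃ C, ∀ x ∈ O, ‖F.Dw w v x‖ ≤ C * g x) →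
    ∃ C, ∀ x, ‖F.Dw w (fun x => f x • v x) x‖ ≤ C * g x := by
  induction w with
  | nil =>
    intro f v hf s _ b
    obtain ⟨C, hC⟩ := b []
    obtain ⟨D, hD⟩ := bdd hf
    refine ⟨|D| * |C|, fun x => ?_⟩
    show ‖f x • v x‖ ≤ _
    by_cases hx : x ∈ O
    · rw [norm_smul, mul_assoc]
      exact mul_le_mul ((hD x).trans (le_abs_self D)) ((hC x hx).trans
        (mul_le_mul_of_nonneg_right (le_abs_self C) (hg x))) (norm_nonneg _) (abs_nonneg D)
    · rw [image_eq_zero_of_notMem_tsupport fun k => hx (s k), zero_smul, norm_zero]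
      have := hg x
      positivity
  | cons a w ih =>
    intro f v hf s hv b
    have sf := Prm93.Cb.sm hf
    have s1 := (F.tsupport_D f a).trans s
    have v1 : ∀ x ∈ O, SA I (F.D a v) x := fun x hx => dv_smoothAt (F.sm a x) (hv x hx)
    obtain ⟨C, hC⟩ := ih (Cb_D hf a) s1 hv b
    obtain ⟨D, hD⟩ := ih hf s v1 fun w => b (a :: w)
    have e : F.D a (fun x => f x • v x) = (fun x => F.D a f x • v x) + fun x => f x • F.D a v x := by
      funext x
      by_cases hx : x ∈ tsupport f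
      · exact dv_smul (SA.md (sf x)) (hv x (s hx)).md
      · rw [Pi.add_apply, image_eq_zero_of_notMem_tsupport hx, image_eq_zero_of_notMem_tsupport
          fun k => hx (F.tsupport_D f a k), zero_smul, zero_smul, add_zero]
        exact image_eq_zero_of_notMem_tsupport fun k =>
          hx (tsupport_smul_subset_left f v (F.tsupport_D _ a k))
    refine ⟨C + D, fun x => ?_⟩
    rw [Pre.Dw, e, Prm93.Dw_add w (sm_cut hO (F.sm_D sf a) s1 hv) (sm_cut hO sf s v1), add_mul]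
    exact (norm_add_le _ _).trans (add_le_add (hC x) (hD x))

end dec

/-- **changes that decay**: `A + L (f • v)` -/
theorem cw_dec {F : Fr I M ι} {o : ι → ι → ι → ι → M → ℝ} (h : OK F o) {C : ℕ → ℝ} (hF : F.Tame C)
    (ho : ∀ a b c d, ∃ C, ∀ x, ‖o a b c d x‖ ≤ C) {A : ι → M → V →L[ℝ] V} (hA : Con I F.P A)
    (cA : ∀ a, F.Cb (A a)) {T : M → V →L[ℝ] V} (hT : Sm I T) (bT : ∃ C, ∀ x, ‖T x‖ ≤ C)
    (p : ∀ a x, nabE I F.e A a T x = 0) {O : Set M} (hO : IsOpen O) {f g : M → ℝ} (hf : F.Cb f)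
    (s : tsupport f ⊆ O) (g0 : ∀ x, 0 ≤ g x) (g1 : ∃ C, ∀ x, g x ≤ C) (gi : Integrable g F.μ)
    (L : N →L[ℝ] V →L[ℝ] V) {v : ι → M → N} (sv : ∀ a, ∀ x ∈ O, SA I (v a) x)
    (pv : ∀ a, ∀ x ∈ O, ∑ b, F.P a b x • v b x = v a x)
    (cv : ∀ a, ∀ x ∈ O, L (v a x) * T x = T x * L (v a x))
    (bv : ∀ a w, ∃ C, ∀ x ∈ O, ‖F.Dw w (v a) x‖ ≤ C * g x) :
    ∫ x, cwd F o T (A + fun a x => L (f x • v a x)) x ∂F.μ = ∫ x, cwd F o T A x ∂F.μ := by
  have sγ := fun a => sm_cut hO (Prm93.Cb.sm hf) s (sv a)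
  have bγ := fun a w => dw_cut hO g0 w hf s (sv a) (bv a)
  have z : ∀ x ∉ O, f x = 0 := fun x hx => image_eq_zero_of_notMem_tsupport fun k => hx (s k)
  have iγ : ∀ a w, Integrable (F.Dw w fun x => f x • v a x) F.μ := fun a w =>
    let ⟨C, hC⟩ := bγ a w
    (gi.const_mul C).mono' (sm_Dw (sγ a) w).continuous.aestronglyMeasurable (.of_forall hC)
  refine cw_int h hF ho hA ⟨fun a x => SA.clm L (sγ a x), fun a x => ?_⟩ cA
    (fun a => Cb_clm L ?_) hT bT p (fun a x => ?_) (fun a => L.integrable_comp (iγ a []))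
    fun a b => ?_
  · by_cases hx : x ∈ O
    · simp only [← map_smul, ← map_sum, smul_comm _ (f x), ← Finset.smul_sum, pv a x hx]
    · simp [z x hx]
  · obtain ⟨D, hD⟩ := g1
    choose c hc using bγ a
    choose C hC using fun k => ((List.finite_length_le ι k).image fun w => |c w| * D).bddAbove
    exact ⟨C, sγ a, fun k w hw x => (hc w x).trans ((mul_le_mul (le_abs_self _) (hD x) (g0 x)
      (abs_nonneg _)).trans (hC k ⟨w, hw, rfl⟩))⟩
  · by_cases hx : x ∈ O
    · simp only [map_smul, smul_mul_assoc, mul_smul_comm, cv a x hx]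
    · simp [z x hx]
  · rw [show F.D a (fun x => L (f x • v b x)) = _ from Prm93.Dw_clm (F := F.toPre) L [a] (sγ b)]
    exact L.integrable_comp (iγ b [a])

theorem int_exp {δ : ℝ} (hδ : 0 < δ) : Integrable fun t : ℝ => Real.exp (-δ * |t|) := by
  rw [← integrableOn_univ, ← Iic_union_Ioi (a := 0)]
  exact ((integrableOn_exp_mul_Iic hδ 0).congr_fun (fun t ht => by
    simp [abs_of_nonpos (show t ≤ 0 from ht)]) measurableSet_Iic).union
    ((integrableOn_exp_mul_Ioi (neg_lt_zero.2 hδ) 0).congr_fun (fun t ht => by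
      simp [abs_of_pos (show 0 < t from ht)]) measurableSet_Ioi)

end Crest.Agent.X212.Cay24
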