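import Crest.Agent.X212.Rdc90.El
import Crest.Agent.X212.Grp76.Dns
import Crest.Agent.X212.Rdc90.Defs
import Crest.Agent.X212.Cgr76.Y
import Crest.Agent.X212.Spn45.Aff
import Crest.Agent.X212.Tmp64.Cfg
import Crest.Agent.X212.Map77.Mono
import Crest.Agent.X212.Sob92.NemF
import Crest.Agent.X212.Wz78.Kos
import Crest.Agent.X212.Std94.Smo
import Crest.Agent.X212.Cht98.Cov
import Crest.Agent.X212.Ell97.Scale
import Crest.Agent.X212.Rsp69.En
import Crest.Agent.X212.Cay24.Out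
import Crest.Agent.X212.Rd78.Bas

-- ▼ part X212/Rdc90/Coul
section

/-! The (approximate) Coulomb gauge near a connection on a closed manifold. -/

set_option autoImplicit false
set_option linter.unusedSectionVars false
noncomputable section
open scoped Manifold ContDiff Topology InnerProductSpace
open MeasureTheory Set Function Filter Module Metric

namespace Crest.Agent.X212.Rdc90
open An An.Pre Sob92 Ell97 Grp76
open Wz78 (nab Skew SA)

/-- the abstract slice without freeness -/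
theorem coul_abs {R B S C L X : Type*} [NormedAddCommGroup R] [NormedSpace ℝ R] [CompleteSpace R]
    [NormedAddCommGroup B] [NormedSpace ℝ B] [NormedAddCommGroup S] [NormedSpace ℝ S]
    [NormedAddCommGroup C] [NormedSpace ℝ C] [CompleteSpace C] [NormedAddCommGroup L]
    [NormedSpace ℝ L] [CompleteSpace L] [NormedAddCommGroup X] [NormedSpace ℝ X] [CompleteSpace X]
    (D : GA R B S C L) (σ : C →L[ℝ] X) (hc : IsClosed (range (σ ∘L D.d 0)))
    (hs : ∀ v, σ v ∈ range (σ ∘L D.d 0)) {G : Set D.Gr} (hG : Dense G) {ε : ℝ} (hε : 0 < ε) :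
    ∃ η > 0, ∀ v : C, ‖v‖ < η → ∀ δ > 0, ∃ g ∈ G, ‖g.v‖ < ε ∧ ‖g • v‖ < ε ∧ ‖σ (g • v)‖ < δ := by
  let T := (σ ∘L D.d 0).range
  have : CompleteSpace T := hc.completeSpace_coe
  let σ' : C →L[ℝ] T := σ.codRestrict T hs
  have h0 : D.e 0 • (0 : C) = 0 := by rw [D.e_zero, one_smul]
  have h1 : HasStrictFDerivAt (fun q : L × C => (σ' (D.e q.1 • q.2), q.2))
      ((σ' ∘L (D.d 0).coprod (.id ℝ C)).prod (.snd ℝ L C)) (0, 0) :=
    (σ'.hasStrictFDerivAt.comp _ (D.hasStrict_act 0)).prodMk hasStrictFDerivAt_snd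
  have h2 := h1.map_nhds_eq_of_surj (LinearMap.range_eq_top.2 fun ⟨y, v⟩ => by
    obtain ⟨ξ, hξ⟩ := (y - σ' v).2
    refine ⟨(ξ, v), Prod.ext (Subtype.ext ?_) rfl⟩
    show σ (D.d 0 ξ + v) = y
    rw [map_add]
    exact eq_sub_iff_add_eq.1 hξ)
  simp only [h0, map_zero] at h2
  have h3 : {q : L × C | ‖(D.e q.1).v‖ < ε ∧ ‖D.e q.1 • q.2‖ < ε} ∈ 𝓝 ((0, 0) : L × C) := by
    refine inter_mem ?_ ?_
    · have := (D.hasStrict_e.continuousAt.tendsto.comp (continuous_fst.tendsto ((0, 0) : L × C))).norm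
      rw [D.e_zero, show (1 : D.Gr).v = 0 from rfl, norm_zero] at this
      exact this.eventually (gt_mem_nhds hε)
    · have := (D.hasStrict_act 0).continuousAt.tendsto.norm
      rw [h0, norm_zero] at this
      exact this.eventually (gt_mem_nhds hε)
  obtain ⟨η, hη, h4⟩ := Metric.mem_nhds_iff.1 (h2 ▸ image_mem_map h3)
  refine ⟨η, hη, fun v hv δ hδ => ?_⟩
  obtain ⟨⟨ξ, w⟩, ⟨k1, k2⟩, k3⟩ := h4 (show ((0 : T), v) ∈ ball (0, 0) η by simpa using hv)
  obtain rfl : w = v := congrArg Prod.snd k3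
  have k4 : σ (D.e ξ • w) = 0 := congrArg Subtype.val (congrArg Prod.fst k3)
  have c1 : Continuous fun g : D.Gr => g • w := continuous_id.smul continuous_const
  obtain ⟨g, g1, g2⟩ := hG.inter_open_nonempty
    {g | ‖g.v‖ < ε ∧ ‖g • w‖ < ε ∧ ‖σ (g • w)‖ < δ}
    ((isOpen_lt GA.isEmbedding_v.continuous.norm continuous_const).inter
      ((isOpen_lt c1.norm continuous_const).inter
        (isOpen_lt (σ.continuous.comp c1).norm continuous_const)))
    ⟨D.e ξ, k1, k2, by rwa [k4, norm_zero]⟩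
  exact ⟨g, g2, g1⟩

variable {E : Type} [NormedAddCommGroup E] [NormedSpace ℝ E] [FiniteDimensional ℝ E]
  [MeasurableSpace E] [BorelSpace E]
  {HM : Type} [TopologicalSpace HM] {I : ModelWithCorners ℝ E HM} [I.Boundaryless]
  {M : Type} [TopologicalSpace M] [ChartedSpace HM M] [IsManifold I ∞ M]
  [MeasurableSpace M] {ι : Type} [Fintype ι]
  [T2Space M] [BorelSpace M] [SecondCountableTopology M] [CompactSpace M]
  {κ : Type} [Fintype κ] [DecidableEq κ] {Q : QB M ι κ} {F : Fr I M ι} {k : ℕ} {C : ℕ → ℝ}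

theorem g_nab (H : Q.Hyp F k) (u : M → HS κ) (hu : Sm I u) (h : ∀ x, Q.g x (u x) = u x) (a : ι)
    (x : M) : Q.g x (nab I F.e Q.ad a u x) = nab I F.e Q.ad a u x := by
  have hm : MDifferentiable I 𝓘(ℝ, HS κ) u := hu.mdifferentiable (by simp)
  refine (H.g_iff _ _).2 ⟨H.par u hm (fun x => ((H.g_iff _ _).1 (h x)).1) a x, ?_⟩
  rw [← H.nab_t (hm x), funext fun y => ((H.g_iff _ _).1 (h y)).2]
  simp only [nab, map_neg, neg_add]
  exact congrArg (· + _) (dv_neg u x)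

theorem sm_of_comp {α V : Type} [Fintype α] [NormedAddCommGroup V] [InnerProductSpace ℝ V]
    {f : M → Fm α V} (h : ∀ a, Sm I fun x => f x a) : Sm I f := by
  have : f = fun x => ∑ a, Grp76.ij V a (f x a) :=
    funext fun x => PiLp.ext fun a => (Grp76.sum_ij _ a).symm
  rw [this]
  exact contMDiff_finsetSum fun a _ => (Grp76.ij V a).contMDiff.comp (h a)

/-- **Coulomb gauge** -/
theorem coul (H : Q.Hyp F (k + 1)) (hF : F.Tame C) (hq : Hq F Q.ad Q.g Q.c) {ε : ℝ} (hε : 0 < ε) :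
    ∃ η > 0, ∀ a : Sec I Q.c, F.nrm (k + 1) a.1 < η → ∀ δ > 0, ∃ (ξ : M → HS κ) (a' : Sec I Q.c),
      Sm I ξ ∧ (∀ x, Q.h x (ξ x) = ξ x) ∧ (∀ x, trn (1 + opL (ξ x)) * (1 + opL (ξ x)) = 1) ∧
      (∀ x b, opL (F.D b ξ x) + (Q.W b x + opL (a'.1 x b)) * (1 + opL (ξ x)) -
        (1 + opL (ξ x)) * (Q.W b x + opL (a.1 x b)) = 0) ∧ F.nrm (k + 2) ξ < ε ∧
      F.nrm (k + 1) a'.1 < ε ∧ F.nrm k (dv1 I F.e F.dv Q.ad fun b y => a'.1 y b) < δ := by
  obtain ⟨C', hA⟩ := hq.good0 hF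
  obtain ⟨C'', hA'⟩ := good_adj hF hA
  let σ₀ : F.H (k + 1) Q.c →L[ℝ] F.H k Q.g := Hs F (d0 F Q.ad Q.g Q.c) k
  let d₀ : F.H (k + 2) Q.g →L[ℝ] F.H (k + 1) Q.c := (d0 F Q.ad Q.g Q.c).H F (k + 1)
  let σ : Q.C F (k + 1) Unit →L[ℝ] F.H k Q.g := σ₀ ∘L ContinuousLinearMap.fst ℝ _ _
  have e1 : ContinuousLinearMap.fst ℝ _ _ ∘L (H.ga Unit).d 0 = -d₀ :=
    clm_ext fun u => H.ext fun x => by
      have h1 : F.val _ _ ((H.ga Unit).d 0 (F.toH _ _ u)).1 x =
          -WithLp.toLp 2 fun a => nab I F.e Q.ad a u.1 x := PiLp.ext fun a => by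
        rw [H.val_d1, val_toH H.hS H.k5]
        simp only [QB.conn, Prod.fst_zero, val_zero, Pi.zero_apply, PiLp.zero_apply, map_zero,
          add_zero]
        rfl
      refine (H.proj _ x).symm.trans ((congrArg (Q.c x) h1).trans ?_)
      rw [map_neg, ← hq.app0 u.2.1 u.2.2.2]
      refine Eq.trans ?_ (congrFun (val_neg _) x).symm
      exact congrArg Neg.neg (congrFun ((congrArg (F.val _ _) (H_toH hA (k + 1) u)).trans
        (val_toH H.hS H.k4 _)) x).symm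
  have e2 : σ ∘L (H.ga Unit).d 0 = -(σ₀ ∘L d₀) := by
    rw [← ContinuousLinearMap.comp_neg, ← e1]; rfl
  have e3 : range (σ ∘L (H.ga Unit).d 0) = range (σ₀ ∘L d₀) := by
    rw [e2]
    exact Subset.antisymm (fun _ ⟨x, h⟩ => ⟨-x, (map_neg _ _).trans h⟩)
      fun _ ⟨x, h⟩ => ⟨-x, (map_neg _ _).trans ((neg_neg _).trans h)⟩
  obtain ⟨η, h0, h1⟩ := coul_abs (H.ga Unit) σ
    (e3 ▸ (fr_LL hF hA hq.cliff0 k).1.isClosed_range) (fun v => by
      obtain ⟨x, hx⟩ := hodge hF hA hq.cliff0 k v.1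
      exact e3 ▸ ⟨x, (sub_eq_zero.1 ((map_sub _ _ _).symm.trans hx)).symm⟩) H.dense_sm hε
  refine ⟨η, h0, fun a ha δ hδ => ?_⟩
  obtain ⟨g, ⟨g1, -⟩, g2, g3, g4⟩ := h1 (F.toH _ _ a, 0) (by
    rwa [Prod.norm_mk, norm_zero, norm_toH, max_eq_left (nrm_nonneg _ _)]) δ hδ
  have va : F.val (k + 1) Q.c (F.toH _ _ a) = a.1 := val_toH H.hS H.k4 a
  have s1 : Sm I (F.val _ _ (g • ((F.toH _ _ a, 0) : Q.C F (k + 1) Unit)).1) :=
    sm_of_comp fun b => by
      simp only [H.val_smul1, va, cnP]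
      have s2 : Sm I fun x => a.1 x b + mA (H.gv g x) (a.1 x b) - nab I F.e Q.ad b (H.gv g) x :=
        ((sm_comp a.2.1 b).add ((mA.contMDiff.comp g1).clm_apply (sm_comp a.2.1 b))).sub
          ((F.sm_D g1 b).add ((hq.sA b).clm_apply g1))
      exact s2.add ((mA.contMDiff.comp s2).clm_apply (tA.contMDiff.comp g1))
  let a' : Sec I Q.c := ⟨_, s1, .of_compactSpace _, H.proj _⟩
  have ea : F.toH _ _ a' = (g • ((F.toH _ _ a, 0) : Q.C F (k + 1) Unit)).1 :=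
    H.ext fun x => congrFun (val_toH H.hS H.k4 _) x
  refine ⟨H.gv g, a', g1, H.h_gv g, H.unit g, fun x b => ?_, ?_, ?_, ?_⟩
  · have := H.par_smul g (F.toH _ _ a, 0) x b
    rwa [QB.conn, QB.conn, va] at this
  · have : F.toH _ Q.h ⟨_, g1, .of_compactSpace _, H.h_gv g⟩ = g.v :=
      H.ext' fun x => congrFun (val_toH H.hS H.k5 _) x
    rwa [← this, norm_toH] at g2
  · rw [← norm_toH, ea]; exact (norm_fst_le _).trans_lt g3
  · have h3 : ‖σ (g • ((F.toH _ _ a, 0) : Q.C F (k + 1) Unit))‖ =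
        F.nrm k (((d0 F Q.ad Q.g Q.c).adj F).app F a'.1) :=
      (congrArg norm ((congrArg σ₀ ea.symm).trans (H_toH hA' k a'))).trans (norm_toH _ _ _ _)
    rw [h3, funext (hq.adj0 hF (g_nab H) a')] at g4
    have h2 := nrm_const_smul (F := F.toPre) k (-1) (u := dv1 I F.e F.dv Q.ad fun b y => a'.1 y b)
      fun x => sa_dv1 (Wz78.frm F) (fun b => hq.sA b x) (fun b => F.dv_sm b x)
        fun b => sm_comp a'.2.1 b x
    rw [neg_one_smul, abs_neg, abs_one, one_mul] at h2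
    exact h2.symm.trans_lt g4

end Crest.Agent.X212.Rdc90
end
end

-- ▼ part X212/Rdc90/Gr
section

/-! Gauge transformations on the cross-section; Coulomb gauge near a flat configuration. -/

set_option autoImplicit false
set_option linter.unusedSectionVars false
noncomputable section
open scoped Manifold ContDiff Topology InnerProductSpace
open MeasureTheory Set Function Filter

namespace Crest.Agent.X212.Rdc90
open An An.Pre Nd18 Cyf70 Sob92
open Wz78 (nab)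
open Tmp64 (Eq0 AdmOn)
open Eqv71 (cj Itw)
open Std94 (Itx)
open Cgr76 (qy ok3 mok)
open Crt72 (pc)
open Map77 (P2 i1 i2)

variable {E3 : Type} [NormedAddCommGroup E3] [NormedSpace ℝ E3] [FiniteDimensional ℝ E3]
  [MeasurableSpace E3] [BorelSpace E3]
  {H3 : Type} [TopologicalSpace H3] {I3 : ModelWithCorners ℝ E3 H3} [I3.Boundaryless]
  {Y : Type} [TopologicalSpace Y] [ChartedSpace H3 Y] [IsManifold I3 ∞ Y] [T2Space Y]
  [MeasurableSpace Y] [BorelSpace Y] [SecondCountableTopology Y] [CompactSpace Y]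
  {κ : Type} [Fintype κ] {lam : Type} [Fintype lam] {D : YD I3 Y κ lam} {β : YC Y κ lam}
  {a a' : κ → Y → β.m.A} {g : Y → En (Fin β.m.N)}

variable (β) in
/-- the connection `β + a` -/
def Wy (a : κ → Y → β.m.A) : κ → Y → En (Fin β.m.N) := fun k y => β.W (some k) y + opL (a k y)

theorem Fo.smW (h : Fo D β a) (hβ : D.Adm β) (k : κ) : Sm I3 (Wy β a k) :=
  (Cgr76.sm_cn hβ k).add (opL.contMDiff.comp (h.sm k))

theorem Fo.skW (h : Fo D β a) (hβ : D.Adm β) (k : κ) (y : Y) : Skw (Wy β a k y) := fun s t => by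
  have h1 := Cgr76.skw_cn hβ k y s t
  simp only [Crt72.cn] at h1
  simp only [Wy, _root_.add_apply, inner_add_left, inner_add_right, h1, (h.mem k y).1 s t]
  ring

theorem Fo.smA (h : Fo D β a) (hβ : D.Adm β) (k : κ) : Sm I3 (Ay β a k) :=
  Wz78.adcL.contMDiff.comp (h.smW hβ k)

theorem smA0 (hβ : D.Adm β) (k : κ) : Sm I3 (A0 β k) :=
  Wz78.adcL.contMDiff.comp (Cgr76.sm_cn hβ k)

theorem sm_br {u v : Y → β.m.A} (hu : Sm I3 u) (hv : Sm I3 v) :
    Sm I3 fun y => adc (opL (u y)) (v y) :=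
  ((Wz78.adcL ∘L opL).contMDiff.comp hu).clm_apply hv

theorem Fo.smB (h : Fo D β a) (hβ : D.Adm β) (i k : κ) : Sm I3 (By D β a i k) := fun y =>
  (sa_ed (Wz78.frm D.F) (fun b => smA0 hβ b y) (fun b => h.sm b y) i k).add
    (sm_br (h.sm i) (h.sm k) y)

theorem Fo.sv (h : Fo D β a) :
    Sv D β (fun x => WithLp.toLp 2 fun o => o.elim 0 fun k => a k x.1) 0 := by
  refine ⟨Cgr76.sm_fm fun o => ?_, fun x => Spn45.p1_iff.2 ⟨fun o => ?_, fun o => ?_⟩,
    contMDiff_const, fun _ => map_zero _⟩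
  · cases o with
    | none => exact contMDiff_const
    | some k => exact (h.sm k).comp contMDiff_fst
  · cases o with
    | none => exact zero_mem _
    | some k => exact h.mem k x.1
  · rw [Fintype.sum_option]
    cases o with
    | none => exact (congrArg₂ (fun u v : β.m.A => u + v) (smul_zero _)
        (Finset.sum_eq_zero fun k _ => zero_smul ℝ _)).trans (add_zero _)
    | some k =>
      exact (congrArg₂ (fun u v : β.m.A => u + v) (smul_zero _) (h.P k x.1)).trans (zero_add _)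

theorem so_zero : So D β 0 := ⟨contMDiff_const, fun _ => map_zero _⟩

theorem ciso {n : Type} [Fintype n] {g p : En n} (hg : trn g * g = 1) (hp : Pj41.CPrj p)
    (e1 : p ∘L g = g ∘L p) : Pj41.CIso (g ∘L p) p p := by
  have e2 : Pj41.ad g ∘L g = 1 := by rw [Pj41.ad_trn]; exact hg
  have e3 : g ∘L Pj41.ad g = 1 := ContinuousLinearMap.coe_injective
    ((LinearMap.comp_eq_id_comm ℝ _).1 (congrArg ContinuousLinearMap.toLinearMap e2))
  refine ⟨?_, ?_, by rw [ContinuousLinearMap.comp_assoc, hp.idem]⟩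
  · rw [Pj41.ad_comp, hp.herm, ContinuousLinearMap.comp_assoc,
      ← ContinuousLinearMap.comp_assoc _ g, e2]
    exact hp.idem
  · rw [← e1, Pj41.ad_comp, hp.herm, ContinuousLinearMap.comp_assoc,
      ← ContinuousLinearMap.comp_assoc g, e3]
    exact hp.idem

variable (D β a a' g) in
/-- `g` maps `β + a` to `β + a'` -/
structure Gr : Prop where
  fo : Fo D β a
  fo' : Fo D β a'
  sm : Sm I3 g
  un : ∀ y, trn (g y) * g y = 1
  itx : ∀ y, Itx β.m β.m y (g y - 1)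
  itw : ∀ y, Itw I3 D.F.e (Wy β a) (Wy β a') g y

namespace Gr
variable (G : Gr D β a a' g)
include G

theorem norm (y : Y) (ξ : β.m.A) : ‖cj (g y) ξ‖ = ‖ξ‖ := by
  rw [← sq_eq_sq₀ (norm_nonneg _) (norm_nonneg _), ← real_inner_self_eq_norm_sq,
    ← real_inner_self_eq_norm_sq, Eqv71.inner_cj, Eqv71.cj_cj,
    show trn (g y) ∘L g y = 1 from G.un y, Eqv71.cj_apply, Eqv71.trn_of_sym fun _ _ => rfl]
  exact congrArg _ (Wz78.hsL_opL ξ)

variable (hB : BasStmt I3 Y κ lam) (h : Bs D β)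
include hB h

theorem eq0 : Eq0 D.Z (cy (bh β a 0)) (cy (bh β a' 0)) univ fun x => g x.1 ∘L β.m.p x.1 := by
  have hA := (hB D β h.ok h.adm).2.1 a 0 G.fo so_zero
  have e0 := Eq0.refl (Tmp64.admOn_univ.2 hA.adm)
  have k : ∀ {y} {A : En (Fin β.m.N)}, (g y - 1) * A = A * (g y - 1) → A ∘L g y = g y ∘L A :=
    fun e => by
      rw [sub_mul, mul_sub, one_mul, mul_one, sub_left_inj] at e
      exact e.symm
  have k' : ∀ {y} {A : En (Fin β.m.N)}, (g y - 1) * A = A * (g y - 1) →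
      A ∘L β.m.p y = β.m.p y ∘L A → A ∘L g y ∘L β.m.p y = (g y ∘L β.m.p y) ∘L A := fun e e' => by
    rw [← ContinuousLinearMap.comp_assoc, k e, ContinuousLinearMap.comp_assoc, e',
      ContinuousLinearMap.comp_assoc]
  have sg : Sm (IC I3) fun x : Y × ℝ => g x.1 := G.sm.comp contMDiff_fst
  refine ⟨⟨fun x _ => (sg x).clm_comp (e0.iso.su x trivial), fun x _ => ?_,
    fun x _ => k' (Grp76.itx_eq (G.itx _)).2.2.2.1 (e0.iso.J x trivial),
    fun x _ b => k' ((Grp76.itx_eq (G.itx _)).2.2.1 b) (e0.iso.ρ x trivial b),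
    fun x _ s => k' ((Grp76.itx_eq (G.itx _)).2.2.2.2 s) (e0.iso.j x trivial s)⟩,
    fun x _ o => ?_, fun x _ => ?_, rfl⟩
  · exact ciso (G.un _) ((Pj41.OK.on hA.adm.ok univ).prj (mem_univ x))
      (k ((Grp76.itx_eq (G.itx _)).2.1.trans (Grp76.itx_eq (G.itx _)).1.symm))
  · let W : (κ → Y → β.m.A) → Option κ → Y × ℝ → En (Fin β.m.N) := fun b => (cy (bh β b 0)).W
    have h1 : Itw (IC I3) D.Z.e (W a) (W a') (fun x => g x.1) x := fun o => by
      cases o with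
      | none =>
        have h2 : ∀ b, W b none x = 0 := fun b =>
          (congrArg₂ (· + ·) (h.adm.tmp _) (map_zero _)).trans (add_zero _)
        rw [h2, h2, show dv (IC I3) (D.Z.e none) _ x = _ from congrFun (D_none_fst D.F.toPre G.sm) x]
        simp
      | some b =>
        rw [show dv (IC I3) (D.Z.e (some b)) _ x = _ from
          congrFun (D_some_fst D.F.toPre G.sm b) x]
        exact G.itw x.1 b
    have h2 : Itw (IC I3) D.Z.e (W a) (W a) (fun x => β.m.p x.1) x := e0.itw (G := D.G) trivial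
    refine sub_eq_zero.2 (show dv (IC I3) _ (fun x => g x.1 ∘L β.m.p x.1) x +
      W a' o x ∘L g x.1 ∘L β.m.p x.1 = (g x.1 ∘L β.m.p x.1) ∘L W a o x from ?_)
    rw [Pj41.dv_cc (b := fun x : Y × ℝ => β.m.p x.1) (sg x) (e0.iso.su x trivial), ContinuousLinearMap.comp_assoc, ← h2 o,
      ContinuousLinearMap.comp_add, ← ContinuousLinearMap.comp_assoc,
      ← ContinuousLinearMap.comp_assoc, ← h1 o, ContinuousLinearMap.add_comp]
    abel
  · show β.Φ x.1 + 0 = g x.1 (β.m.p x.1 (β.Φ x.1 + 0))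
    simp [h.zr]

theorem By (i k : κ) (y : Y) : By D β a' i k y = cj (g y) (By D β a i k y) := by
  obtain ⟨-, h1, h2, -⟩ := hB D β h.ok h.adm
  have h3 := (G.eq0 hB h).Fg (G := D.G) isOpen_univ h.ok.B (h1 a 0 G.fo so_zero).adm
    (h1 a' 0 G.fo' so_zero).adm (mem_univ (y, 0)) (some i, some k)
  have h4 := (h2 _ _ G.fo.sv).2.2 h.flat y 0 i k
  refine ((h2 _ _ G.fo'.sv).2.2 h.flat y 0 i k).symm.trans (h3.trans ?_)
  exact (Eqv71.cj_cj _ _ _).symm.trans
    (congrArg (cj (g y)) ((Eqv71.ME.cj_p (Wz78.pg_mem _ _)).trans h4))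

theorem Ly (k : κ) (y : Y) : Ly D β a' k y = cj (g y) (Ly D β a k y) := by
  have h1 := (G.itw y).cj (G.sm y) (fun b => G.fo.skW h.adm b y) fun b => G.fo'.skW h.adm b y
  have h2 : ∀ b i k, nab I3 D.F.e (Ay β a') b (Rdc90.By D β a' i k) y =
      cj (g y) (nab I3 D.F.e (Ay β a) b (Rdc90.By D β a i k) y) := fun b i k => by
    rw [funext (G.By hB h i k)]
    exact h1.nab (Eqv71.sa_cj (G.sm y)).md (Wz78.SA.md (G.fo.smB h.adm i k y)) b
  simp only [Rdc90.Ly, dl, h2, G.By hB h _ _ y, map_sum, map_smul, map_sub, map_neg, map_add]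

end Gr

end Crest.Agent.X212.Rdc90
end
end

-- ▼ part X212/Rdc90/Cg
section

/-! Coulomb gauge and harmonic part near a flat configuration. -/

set_option autoImplicit false
set_option linter.unusedSectionVars false
noncomputable section
open scoped Manifold ContDiff Topology InnerProductSpace
open MeasureTheory Set Function Filter

namespace Crest.Agent.X212.Rdc90
open An An.Pre Nd18 Cyf70 Sob92
open Wz78 (nab)
open Tmp64 (Eq0 AdmOn)
open Eqv71 (cj Itw)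
open Std94 (Itx)
open Cgr76 (qy ok3 mok)
open Crt72 (pc)
open Map77 (P2 i1 i2)

variable {E3 : Type} [NormedAddCommGroup E3] [NormedSpace ℝ E3] [FiniteDimensional ℝ E3]
  [MeasurableSpace E3] [BorelSpace E3]
  {H3 : Type} [TopologicalSpace H3] {I3 : ModelWithCorners ℝ E3 H3} [I3.Boundaryless]
  {Y : Type} [TopologicalSpace Y] [ChartedSpace H3 Y] [IsManifold I3 ∞ Y] [T2Space Y]
  [MeasurableSpace Y] [BorelSpace Y] [SecondCountableTopology Y] [CompactSpace Y]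
  {κ : Type} [Fintype κ] {lam : Type} [Fintype lam] {D : YD I3 Y κ lam} {β : YC Y κ lam}
  {a a' : κ → Y → β.m.A} {g : Y → En (Fin β.m.N)}

theorem nsum (F : Pre I3 Y κ) (j : ℕ) {α V W : Type} [Fintype α] [NormedAddCommGroup V]
    [InnerProductSpace ℝ V] [FiniteDimensional ℝ V] [NormedAddCommGroup W] [InnerProductSpace ℝ W]
    [FiniteDimensional ℝ W] (L : α → V →L[ℝ] W) : ∃ K, 0 ≤ K ∧ ∀ (u : α → Y → V) (b : ℝ),
      (∀ s, Sm I3 (u s)) → (∀ s, F.nrm j (u s) ≤ b) → 0 ≤ b →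
      F.nrm j (fun x => ∑ s, L s (u s x)) ≤ K * b := by
  choose K h0 hK using fun s => nclm F j (L s)
  refine ⟨∑ s, K s, Finset.sum_nonneg fun s _ => h0 s, fun u b hu hb _ => ?_⟩
  rw [Finset.sum_mul]
  exact (nrm_sum_le _ j (fun s _ => (L s).contMDiff.comp (hu s))
    fun _ _ => .of_compactSpace _).trans (Finset.sum_le_sum fun s _ =>
      (hK s _ (hu s)).trans (mul_le_mul_of_nonneg_left (hb s) (h0 s)))

theorem smL {V W : Type} [NormedAddCommGroup V] [NormedSpace ℝ V] [NormedAddCommGroup W]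
    [NormedSpace ℝ W] (L : V →L[ℝ] W) {u : Y → V} (hu : Sm I3 u) : Sm I3 fun y => L (u y) :=
  L.contMDiff.comp hu

/-- a form as a section -/
def Fo.sec (h : Fo D β a) : Sec I3 (pc D β) :=
  ⟨fun y => WithLp.toLp 2 fun k => a k y, sm_of_comp h.sm, .of_compactSpace _, fun y =>
    (Cgr76.pc_iff y _).2 ⟨fun k => Wz78.pg_of_mem (h.mem k y), fun k => h.P k y⟩⟩

theorem fo_sec (u : Sec I3 (pc D β)) : Fo D β fun k y => u.1 y k :=
  ⟨sm_comp u.2.1, fun k y => Cgr76.pc_mem (u.2.2.2 y) k,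
    fun k y => ((Cgr76.pc_iff y _).1 (u.2.2.2 y)).2 k⟩

variable (β) in
/-- the quadratic term -/
def Qb : Fm κ β.m.A →L[ℝ] Fm κ β.m.A →L[ℝ] P2 β.m.A (Fm (κ × κ) β.m.A) :=
  ∑ s : κ × κ, ContinuousLinearMap.compL ℝ _ _ _ (i2 _ _ ∘L ((√2)⁻¹ • Map77.ij _ s)) ∘L
    (Wz78.adcL ∘L opL).bilinearComp (Map77.pj _ s.1) (Map77.pj _ s.2)

theorem Qb_apply (v w : Fm κ β.m.A) : Qb β v w =
    ∑ s : κ × κ, (i2 _ _ ∘L ((√2)⁻¹ • Map77.ij _ s)) (adc (opL (v s.1)) (w s.2)) := by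
  simp only [Qb, _root_.sum_apply]; rfl

theorem Bs.hq (h : Bs D β) : Hq D.F (A0 β) β.m.pg (pc D β) :=
  ⟨smA0 h.adm, fun k y => Wz78.adc_skw (Cgr76.skw_cn h.adm k y), Cgr76.sm_pgY h.ok h.adm,
    Cgr76.sm_pc h.ok h.adm, ⟨Wz78.pg_pg, Wz78.inner_pg⟩, fun _ => rfl⟩

theorem Bs.app (h : Bs D β) (u : Sec I3 (pc D β)) (y : Y) :
    (d1 D.F (A0 β) (pc D β)).app D.F u.1 y = i1 _ _ (dv1 I3 D.F.e D.F.dv (A0 β) (fun b y => u.1 y b) y)
      + ∑ s : κ × κ, (i2 _ _ ∘L ((√2)⁻¹ • Map77.ij _ s))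
        (ed I3 D.F.e D.F.c (A0 β) (fun b y => u.1 y b) s.1 s.2 y) := by
  rw [h.hq.app1]
  simp only [ContinuousLinearMap.comp_apply, _root_.smul_apply, ← map_sum, ← Finset.smul_sum]
  congr 3
  exact Map77.fm_ext fun s => (Map77.sum_ij _ s).symm

theorem Bs.har (h : Bs D β) {u : Sec I3 (pc D β)} (e : (d1 D.F (A0 β) (pc D β)).app D.F u.1 = 0) :
    Har D β fun k y => u.1 y k := by
  have e1 := fun y => (h.hq.app1 u y).symm.trans (congrFun e y)
  refine ⟨fo_sec u, fun j k y => ?_, fun y => by simpa using congrArg (Map77.f2 _ _) (e1 y)⟩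
  simpa using congrArg (fun v : P2 β.m.A (Fm (κ × κ) β.m.A) => Map77.s2 _ _ v (j, k)) (e1 y)

theorem cp {n : ℕ} {u : Y → Fm κ β.m.A} {b : ℝ} (hu : Sm I3 u) (e : D.F.CB n u b) (hb : 0 ≤ b)
    (k : κ) : D.F.CB n (fun y => u y k) b :=
  CB_mono (CB_clm (Map77.pj β.m.A k) hu e) (mul_le_of_le_one_left hb
    (ContinuousLinearMap.opNorm_le_bound _ zero_le_one fun v => by
      rw [one_mul]; exact PiLp.norm_apply_le v k))

/-- the harmonic part -/
theorem Bs.key (h : Bs D β) (hc : HC D β) (j m : ℕ) : ∃ K, 0 ≤ K ∧ ∃ ε₀ > 0,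
    ∀ (a : Sec I3 (pc D β)) (ε : ℝ), 0 ≤ ε → ε ≤ ε₀ → D.F.CB (j + 1) a.1 ε →
      ∃ u, Har D β u ∧ (∀ k, D.F.CB m (u k) (K * ε)) ∧ ∀ b δ, 0 ≤ b → 0 ≤ δ →
        D.F.nrm j (dv1 I3 D.F.e D.F.dv (A0 β) fun b y => a.1 y b) ≤ δ →
        (∀ i k, D.F.nrm j (By D β (fun b y => a.1 y b) i k) ≤ b) →
        ∀ k, D.F.nrm (j + 1) (fun y => a.1 y k - u k y) ≤ K * (b + δ) := by
  obtain ⟨C, hF⟩ := Cht98.exists_tame D.F (by rw [h.dim]; norm_num)
  obtain ⟨C', hA⟩ := h.hq.good1 hF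
  obtain ⟨K₁, p1, ε₀, p0, H1⟩ := Rdc90.key hF hA h.hq.cliff1 (Qb β) (fun u e y => by
    rw [Qb_apply]
    exact Finset.sum_eq_zero fun s _ => by rw [hc _ (h.har e), map_zero]) j m
  obtain ⟨K₂, p2, H2⟩ := nsum D.F.toPre j fun s : κ × κ =>
    i2 β.m.A (Fm (κ × κ) β.m.A) ∘L ((√2)⁻¹ • Map77.ij β.m.A s)
  obtain ⟨K₃, p3, H3⟩ := nclm D.F.toPre j (i1 β.m.A (Fm (κ × κ) β.m.A))
  choose K₆ p6 H6 using fun k : κ => nclm D.F.toPre (j + 1) (Map77.pj β.m.A k)
  have p7 := Finset.sum_nonneg fun k (_ : k ∈ Finset.univ) => p6 k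
  have p8 : 0 ≤ (∑ k, K₆ k) * (K₁ * (K₂ + K₃)) := by positivity
  have ar : ∀ k b δ, 0 ≤ b → 0 ≤ δ → K₆ k * (K₁ * (K₃ * δ + K₂ * b)) ≤
      (K₁ + (∑ k, K₆ k) * (K₁ * (K₂ + K₃))) * (b + δ) := fun k b δ hb hδ => by
    refine le_trans ?_ (mul_le_mul_of_nonneg_right (le_add_of_nonneg_left p1) (by positivity))
    rw [mul_assoc, mul_assoc]
    exact mul_le_mul (Finset.single_le_sum (fun k _ => p6 k) (Finset.mem_univ k))
      (mul_le_mul_of_nonneg_left (by linarith [mul_nonneg p2 hδ, mul_nonneg p3 hb]) p1)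
      (by positivity) p7
  refine ⟨K₁ + (∑ k, K₆ k) * (K₁ * (K₂ + K₃)), by positivity, ε₀, p0, fun a ε h0 h1 ha => ?_⟩
  obtain ⟨u, e1, e2, e3⟩ : ∃ u : Sec I3 (pc D β), (d1 D.F (A0 β) (pc D β)).app D.F u.1 = 0 ∧
      D.F.CB m u.1 (K₁ * ε) ∧ D.F.nrm (j + 1) (a - u).1 ≤ K₁ * D.F.nrm j fun x =>
        (d1 D.F (A0 β) (pc D β)).app D.F a.1 x + Qb β (a.1 x) (a.1 x) := H1 a ε h0 h1 ha
  refine ⟨_, h.har e1, fun k => CB_mono (cp u.2.1 e2 (by positivity) k) (by nlinarith),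
    fun b δ hb hδ s7 e k => ?_⟩
  have e4 : D.F.nrm (j + 1) (fun y => a.1 y k - u.1 y k) ≤ K₆ k * D.F.nrm (j + 1) (a - u).1 :=
    H6 k _ (a - u).2.1
  have sd : Sm I3 (dv1 I3 D.F.e D.F.dv (A0 β) fun b y => a.1 y b) := fun y =>
    sa_dv1 (Wz78.frm D.F) (fun b => smA0 h.adm b y) (fun b => D.F.dv_sm b y)
      fun b => (fo_sec a).sm b y
  have sB := fun s : κ × κ => (fo_sec a).smB h.adm s.1 s.2
  have e5 : (fun x => (d1 D.F (A0 β) (pc D β)).app D.F a.1 x + Qb β (a.1 x) (a.1 x)) =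
      fun y => i1 _ _ (dv1 I3 D.F.e D.F.dv (A0 β) (fun b y => a.1 y b) y) +
        ∑ s : κ × κ, (i2 β.m.A (Fm (κ × κ) β.m.A) ∘L ((√2)⁻¹ • Map77.ij β.m.A s))
          (By D β (fun b y => a.1 y b) s.1 s.2 y) := funext fun y => by
    rw [h.app, Qb_apply, add_assoc, ← Finset.sum_add_distrib]
    simp only [← map_add]; rfl
  have t1 : Sm I3 fun y => i1 β.m.A (Fm (κ × κ) β.m.A)
      (dv1 I3 D.F.e D.F.dv (A0 β) (fun b y => a.1 y b) y) := smL _ sd
  have t2 : Sm I3 fun y => ∑ s : κ × κ, (i2 β.m.A (Fm (κ × κ) β.m.A) ∘L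
      ((√2)⁻¹ • Map77.ij β.m.A s)) (By D β (fun b y => a.1 y b) s.1 s.2 y) :=
    contMDiff_finsetSum fun s _ => smL _ (sB s)
  have t3 := nadd (F := D.F.toPre) (k := j) t1 t2
  have t4 := H2 _ b sB (fun s => e s.1 s.2) hb
  have t5 := (H3 _ sd).trans (mul_le_mul_of_nonneg_left s7 p3)
  rw [← e5] at t3
  have e6 := e3.trans (mul_le_mul_of_nonneg_left (t3.trans (add_le_add t5 t4)) p1)
  exact e4.trans ((mul_le_mul_of_nonneg_left e6 (p6 k)).trans (ar k b δ hb hδ))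

/-- the Coulomb gauge -/
theorem Bs.coul (h : Bs D β) (j : ℕ) {ε : ℝ} (hε : 0 < ε) : ∃ η > 0, ∀ a, Fo D β a →
    (∀ k, D.F.CB (j + 7) (a k) η) → ∀ δ > 0, ∃ (a' : Sec I3 (pc D β)) (g : Y → En (Fin β.m.N)),
      Gr D β a (fun b y => a'.1 y b) g ∧ D.F.CB j (fun y => g y - 1) ε ∧ D.F.CB (j + 1) a'.1 ε ∧
      D.F.nrm j (dv1 I3 D.F.e D.F.dv (A0 β) fun b y => a'.1 y b) ≤ δ := by
  obtain ⟨C, hF⟩ := Cht98.exists_tame D.F (by rw [h.dim]; norm_num)
  obtain ⟨K₄, p4, H4⟩ := nsum D.F.toPre (j + 7) (Grp76.ij (ι := κ) β.m.A)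
  obtain ⟨K₅, p5, H5⟩ := ncb D.F.toPre (j + 7) β.m.A
  have H : (qy D β 0).Hyp D.F (j + 6 + 1) :=
    ⟨Cgr76.qok h.ok h.adm contMDiff_const fun _ => map_zero _, ⟨_, Sup.of_tame hF⟩, by omega⟩
  have n0 := norm_nonneg (opL : CL β.m.A _)
  set ε₁ := ε / (1 + ‖(opL : CL β.m.A _)‖) with hε₁
  have p9 : 0 < ε₁ := by positivity
  have q1 : (1 + ‖(opL : CL β.m.A _)‖) * ε₁ = ε := mul_div_cancel₀ _ (by positivity)
  obtain ⟨η, q0, H7⟩ := Rdc90.coul H hF h.hq (ε := ε₁ / (√|C 0| + 1)) (by positivity)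
  refine ⟨η / (K₄ * K₅ + 1), by positivity, fun a ha hb δ hδ => ?_⟩
  obtain ⟨ξ, a', s1, s2, s3, s4, s5, s6, s7⟩ := H7 ha.sec (by
    have := H4 a _ ha.sm (fun k => H5 _ _ (ha.sm k) (hb k)) (by positivity)
    rw [abs_of_pos (by positivity), ← mul_assoc, ← mul_div_assoc] at this
    refine lt_of_eq_of_lt ?_ (this.trans_lt ?_)
    · exact congrArg _ (funext fun y => PiLp.ext fun k => (Grp76.sum_ij _ k).symm)
    · rw [div_lt_iff₀ (by positivity)]; nlinarith) δ hδ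
  have cb : ∀ {V : Type} [NormedAddCommGroup V] [InnerProductSpace ℝ V] [FiniteDimensional ℝ V]
      {u : Y → V}, Sm I3 u → D.F.nrm (j + 7) u < ε₁ / (√|C 0| + 1) → D.F.CB (j + 1) u ε₁ :=
    fun {V} _ _ _ {u} hu e => CB_mono (CB_of_le (cbn (Sup.of_tame hF) hu (j + 3)) (by omega)) (by
      rw [lt_div_iff₀ (by positivity)] at e
      nlinarith [nrm_nonneg (F := D.F.toPre) (j + 7) u, e])
  refine ⟨a', fun y => 1 + opL (ξ y), ⟨ha, fo_sec a', contMDiff_const.add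
    (opL.contMDiff.comp s1), s3, fun y => ?_, fun y b => ?_⟩, ?_,
    CB_mono (cb a'.2.1 s6) (by nlinarith), (nrm_mono (by omega) _).trans s7.le⟩
  · rw [add_sub_cancel_left]
    exact (Grp76.ph_iff (ok3 h.ok) (mok h.adm) _).1 (s2 y)
  · have e4 : dv I3 (D.F.e b) (fun y => 1 + opL (ξ y)) y = opL (D.F.D b ξ y) :=
      (dv_add mdifferentiableAt_const ((opL.contMDiff.comp s1).mdifferentiableAt (by simp))).trans
        ((congrArg₂ (· + ·) (congrFun (dv_const _) _)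
          (dv_clm opL (s1.mdifferentiableAt (by simp)))).trans (zero_add _))
    rw [e4]
    exact sub_eq_zero.1 (s4 y b)
  · simp only [add_sub_cancel_left]
    exact CB_mono (CB_clm opL s1 (CB_of_le (cb s1 ((nrm_mono (by omega) _).trans_lt s5))
      j.le_succ)) (by nlinarith)

/-- Coulomb gauge and harmonic part -/
theorem cor (h : Bs D β) (hc : HC D β) (j m : ℕ) : ∃ K, 0 ≤ K ∧ ∀ ε > 0, ∃ η > 0, ∀ a, Fo D β a →
    (∀ k, D.F.CB (j + 7) (a k) η) → ∀ δ > 0, ∃ a' g u, Gr D β a a' g ∧ Har D β u ∧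
      D.F.CB j (fun y => g y - 1) ε ∧ (∀ k, D.F.CB j (a' k) ε) ∧ (∀ k, D.F.CB m (u k) ε) ∧
      ∀ b, 0 ≤ b → (∀ i k, D.F.nrm j (By D β a' i k) ≤ b) →
        ∀ k, D.F.nrm (j + 1) (fun y => a' k y - u k y) ≤ K * (b + δ) := by
  obtain ⟨K, p1, ε₀, p0, H1⟩ := h.key hc j m
  refine ⟨K, p1, fun ε hε => ?_⟩
  set ε₁ := min ε₀ (ε / (1 + K)) with hε₁
  have p9 : 0 < ε₁ := lt_min p0 (by positivity)
  have q1 : (1 + K) * ε₁ ≤ ε := by
    rw [mul_comm, ← le_div_iff₀ (by positivity)]; exact min_le_right _ _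
  obtain ⟨η, q0, H7⟩ := h.coul j p9
  refine ⟨η, q0, fun a ha hb δ hδ => ?_⟩
  obtain ⟨a', g, s1, s2, s3, s4⟩ := H7 a ha hb δ hδ
  obtain ⟨u, e1, e2, e3⟩ := H1 a' ε₁ p9.le (min_le_left _ _) s3
  exact ⟨_, g, u, s1, e1, CB_mono s2 (by nlinarith),
    fun k => CB_mono (CB_of_le (cp a'.2.1 s3 p9.le k) j.le_succ) (by nlinarith),
    fun k => CB_mono (e2 k) (by nlinarith), fun b hb e => e3 b δ hb hδ.le s4 e⟩

end Crest.Agent.X212.Rdc90
end
end

-- ▼ part X212/Rdc90/Near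
section

/-! The leaves LOJ and NEAR. -/

set_option autoImplicit false
set_option linter.unusedSectionVars false
noncomputable section
open scoped Manifold ContDiff Topology InnerProductSpace
open MeasureTheory Set Function Filter

namespace Crest.Agent.X212.Rdc90
open An An.Pre Nd18 Cyf70 Sob92
open Wz78 (nab)
open Tmp64 (Eq0 AdmOn)
open Eqv71 (cj Itw)
open Std94 (Itx)
open Cgr76 (qy ok3 mok)
open Crt72 (pc)
open Bki64 (Cl)
open Neck67 (Lb)

variable {E3 : Type} [NormedAddCommGroup E3] [NormedSpace ℝ E3] [FiniteDimensional ℝ E3]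
  [MeasurableSpace E3] [BorelSpace E3]
  {H3 : Type} [TopologicalSpace H3] {I3 : ModelWithCorners ℝ E3 H3} [I3.Boundaryless]
  {Y : Type} [TopologicalSpace Y] [ChartedSpace H3 Y] [IsManifold I3 ∞ Y] [T2Space Y]
  [MeasurableSpace Y] [BorelSpace Y] [SecondCountableTopology Y] [CompactSpace Y]
  {κ : Type} [Fintype κ] {lam : Type} [Fintype lam] {D : YD I3 Y κ lam} {β : YC Y κ lam}
  {a a' : κ → Y → β.m.A} {g : Y → En (Fin β.m.N)}

theorem br_anti (ξ η : β.m.A) : adc (opL ξ) η = -adc (opL η) ξ := by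
  rw [Grp76.adc_opL, Grp76.adc_opL, neg_sub]

theorem By_anti (i k : κ) (y : Y) : By D β a i k y = -By D β a k i y := by
  simp only [By, ed, br_anti (a i y), Wz78.c_anti D.F i k, neg_smul, Finset.sum_neg_distrib]
  abel

theorem By_eq {u : κ → Y → β.m.A} (ha : Fo D β a) (hu : Har D β u) (hc : HC D β) (i k : κ) (y : Y) :
    By D β a i k y = ed I3 D.F.e D.F.c (Ay β a) (fun k y => a k y - u k y) i k y -
      adc (opL (a i y - u i y)) (a k y - u k y) := by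
  have e : ∀ w : κ → Y → β.m.A, ed I3 D.F.e D.F.c (Ay β a) w i k y = ed I3 D.F.e D.F.c (A0 β) w i k y
      + (adc (opL (a i y)) (w k y) - adc (opL (a k y)) (w i y)) := fun w => by
    simp only [ed, nab, Ay, A0, ← Wz78.adcL_apply, map_add, _root_.add_apply]
    abel
  have h0 := hc u hu i k y
  rw [e, ed_sub (fun k => ha.sm k y) (fun k => hu.sm k y), hu.ed, br_anti (a k y), By]
  simp only [← Wz78.adcL_apply, map_sub, _root_.sub_apply] at h0 ⊢
  rw [h0]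
  abel

/-- the pointwise inequality behind the Lojasiewicz inequality -/
theorem loj_pt {u : κ → Y → β.m.A} (hβ : D.Adm β) (ha : Fo D β a) (hu : Har D β u) (hc : HC D β)
    {t c : ℝ} (ht : 0 < t) (y : Y) (h : ∀ i, ‖adc (opL (a i y - u i y))‖ ≤ c) :
    ∑ i, ∑ k, ‖By D β a i k y‖ ^ 2 ≤ 2 * t * ∑ k, ‖Ly D β a k y‖ ^ 2 +
      (2 * t⁻¹ + Fintype.card κ * c ^ 2) * ∑ k, ‖a k y - u k y‖ ^ 2 + 4 * Wz78.dvg I3 D.F.e D.F.dv
        (fun j y => ∑ k, ⟪By D β a j k y, a k y - u k y⟫_ℝ) y := by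
  have h1 := adj_ed (e := D.F.e) (c := D.F.c) (g := D.F.dv) (A := Ay β a)
    (fun b => Wz78.adc_skw (ha.skW hβ b y)) (α := fun k y => a k y - u k y) (β := By D β a)
    (fun k => (ha.sm k y).sub (hu.sm k y)) (fun i k => ha.smB hβ i k y) fun i k => By_anti i k y
  have h2 : ∑ k, ⟪dl I3 D.F.e D.F.c D.F.dv (Ay β a) (By D β a) k y, a k y - u k y⟫_ℝ =
      ∑ k, ⟪Ly D β a k y, a k y - u k y⟫_ℝ := by
    simp only [Ly, sum_inner, real_inner_smul_left]
    rw [Finset.sum_comm]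
    refine Finset.sum_congr rfl fun k _ => ?_
    rw [← ha.P k y, ← hu.P k y]
    simp only [← Finset.sum_sub_distrib, ← smul_sub, inner_sum, real_inner_smul_right,
      D.F.P_symm _ k]
  have h3 : ∀ k, 2 * ⟪Ly D β a k y, a k y - u k y⟫_ℝ ≤
      t * ‖Ly D β a k y‖ ^ 2 + t⁻¹ * ‖a k y - u k y‖ ^ 2 := fun k => by
    have := real_inner_le_norm (Ly D β a k y) (a k y - u k y)
    have := mul_nonneg ht.le (sq_nonneg (‖Ly D β a k y‖ - t⁻¹ * ‖a k y - u k y‖))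
    have e : ∀ p q : ℝ, t * (p - t⁻¹ * q) ^ 2 = t * p ^ 2 + t⁻¹ * q ^ 2 - 2 * (p * q) :=
      fun p q => by field_simp; ring
    rw [e] at this
    linarith
  have h4 : ∀ i k, ‖By D β a i k y‖ ^ 2 ≤ 2 * ⟪By D β a i k y,
      ed I3 D.F.e D.F.c (Ay β a) (fun k y => a k y - u k y) i k y⟫_ℝ +
      c ^ 2 * ‖a k y - u k y‖ ^ 2 := fun i k => by
    rw [eq_add_of_sub_eq (By_eq ha hu hc i k y).symm, inner_add_right,
      real_inner_self_eq_norm_sq, ← mul_pow]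
    have p1 := ((adc (opL (a i y - u i y))).le_opNorm (a k y - u k y)).trans
      (mul_le_mul_of_nonneg_right (h i) (norm_nonneg _))
    have p2 := pow_le_pow_left₀ (norm_nonneg _) p1 2
    have p3 := norm_add_sq_real (By D β a i k y) (adc (opL (a i y - u i y)) (a k y - u k y))
    linarith [sq_nonneg ‖By D β a i k y + adc (opL (a i y - u i y)) (a k y - u k y)‖]
  have h5 := Finset.sum_le_sum fun i (_ : i ∈ Finset.univ) =>
    Finset.sum_le_sum fun k (_ : k ∈ Finset.univ) => h4 i k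
  have h6 := Finset.sum_le_sum fun k (_ : k ∈ Finset.univ) => h3 k
  simp only [Finset.sum_add_distrib, ← Finset.mul_sum, Finset.sum_const, nsmul_eq_mul,
    Finset.card_univ] at h5 h6
  rw [h1, h2] at h5
  nlinarith

theorem loj (hB : BasStmt I3 Y κ lam) : LojStmt I3 Y κ lam := fun D β h hc => by
  obtain ⟨K, p1, H⟩ := cor h hc 0 0
  set n : ℝ := (Fintype.card κ : ℝ) with hn
  have p2 : 0 ≤ n := by positivity
  set c := 2 * ‖(Wz78.adcL ∘L opL : CL β.m.A _)‖ with hc'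
  have p3 : 0 ≤ c := by positivity
  set M := 2 * n * K ^ 2 + 1 with hM
  have p4 : 0 < M := by positivity
  set ε := 1 / (4 * n * c ^ 2 * M + 1) with hε
  have p5 : 0 < ε := by positivity
  have p6 : (2 * (8 * M)⁻¹ + n * (c * ε) ^ 2) * M ≤ 1 / 2 := by
    have e1 : (4 * n * c ^ 2 * M + 1) * ε = 1 := mul_one_div_cancel (by positivity)
    have e2 : 2 * (8 * M)⁻¹ * M = 1 / 4 := by field_simp; norm_num
    have e3 : 0 ≤ n * c ^ 2 * M * ε := by positivity
    nlinarith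
  obtain ⟨η, q0, H⟩ := H ε p5
  refine ⟨4 * (8 * M), 7, η, q0, fun a ha hb => le_of_forall_pos_le_add fun δ hδ => ?_⟩
  obtain ⟨a', g, u, G, hu, -, s1, s2, s3⟩ := H a ha hb √δ (Real.sqrt_pos.2 hδ)
  have nB : ∀ i k y, ‖By D β a i k y‖ = ‖By D β a' i k y‖ := fun i k y => by
    rw [G.By hB h, G.norm]
  have nL : ∀ k y, ‖Ly D β a k y‖ = ‖Ly D β a' k y‖ := fun k y => by rw [G.Ly hB h, G.norm]
  simp only [nB, nL]
  have I : ∀ {f : Y → β.m.A}, Sm I3 f → Integrable (fun y => ‖f y‖ ^ 2) D.F.μ := fun hf =>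
    (hf.continuous.norm.pow 2).integrable_of_hasCompactSupport (.of_compactSpace _)
  have sB := G.fo'.smB h.adm
  have sw : ∀ k, Sm I3 fun y => a' k y - u k y := fun k => (G.fo'.sm k).sub (hu.sm k)
  have sL : ∀ k, Sm I3 (Ly D β a' k) := fun k y => Wz78.SA.sum _ fun m _ =>
    Wz78.SA.smul (D.F.P_sm k m y) (sa_dl (Wz78.frm D.F) (fun b => G.fo'.smA h.adm b y)
      (fun b => D.F.dv_sm b y) (fun i k => sB i k y) m)
  have iB := fun i => integrable_finsetSum Finset.univ fun k _ => I (sB i k)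
  have iL := integrable_finsetSum Finset.univ fun k _ => I (sL k)
  have iw := integrable_finsetSum Finset.univ fun k _ => I (sw k)
  have sf : ∀ j, Sm I3 fun y => ∑ k, ⟪By D β a' j k y, a' k y - u k y⟫_ℝ := fun j =>
    contMDiff_finsetSum fun k _ => Ell97.sm_inner (sB j k) (sw k)
  have h1 := integral_mono (integrable_finsetSum Finset.univ fun i _ => iB i)
    (((iL.const_mul _).add (iw.const_mul _)).add
      ((Wz78.integ_dvg sf fun _ => .of_compactSpace _).const_mul 4))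
    fun y => loj_pt (t := 8 * M) (c := c * ε) h.adm G.fo' hu hc (by positivity) y fun i =>
      ((Wz78.adcL ∘L opL : CL β.m.A _).le_opNorm _).trans (by
        have := (norm_sub_le _ _).trans (add_le_add (CB_bound (s1 i) y) (CB_bound (s2 i) y))
        rw [hc', mul_comm 2, mul_assoc]
        exact mul_le_mul_of_nonneg_left (by linarith) (norm_nonneg _))
  rw [integral_add' ((iL.const_mul _).add (iw.const_mul _))
      ((Wz78.integ_dvg sf fun _ => .of_compactSpace _).const_mul 4),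
    integral_add' (iL.const_mul _) (iw.const_mul _), integral_const_mul, integral_const_mul,
    integral_const_mul, Wz78.integral_dvg sf fun _ => .of_compactSpace _,
    integral_finsetSum _ fun k _ => I (sw k)] at h1
  generalize hX : ∫ y, ∑ i, ∑ k, ‖By D β a' i k y‖ ^ 2 ∂D.F.μ = X at h1 ⊢
  have X0 : 0 ≤ X := hX ▸ integral_nonneg fun y => by positivity
  have h2 := s3 √X (Real.sqrt_nonneg _) fun i k => by
    rw [nrm_eq]
    refine Real.sqrt_le_sqrt (hX ▸ integral_mono (I (sB i k))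
      (integrable_finsetSum Finset.univ fun i _ => iB i) fun y => ?_)
    exact (Finset.single_le_sum (f := fun k => ‖By D β a' i k y‖ ^ 2) (fun _ _ => by positivity)
      (Finset.mem_univ k)).trans (Finset.single_le_sum
        (f := fun i => ∑ k, ‖By D β a' i k y‖ ^ 2) (fun _ _ => by positivity) (Finset.mem_univ i))
  have h3 : ∑ k, ∫ y, ‖a' k y - u k y‖ ^ 2 ∂D.F.μ ≤ M * (X + δ) := by
    refine (Finset.sum_le_card_nsmul _ _ (2 * K ^ 2 * (X + δ)) fun k _ => ?_).trans ?_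
    · refine (nrm_sq 0 _).symm.trans_le ((pow_le_pow_left₀ (nrm_nonneg _ _)
        ((nrm_mono zero_le_one _).trans (h2 k)) 2).trans ?_)
      have := mul_le_mul_of_nonneg_left (add_sq_le (a := √X) (b := √δ)) (sq_nonneg K)
      rw [Real.sq_sqrt X0, Real.sq_sqrt hδ.le] at this
      rw [mul_pow]; linarith
    · rw [nsmul_eq_mul, Finset.card_univ, hM]; nlinarith
  have h4 := (mul_le_mul_of_nonneg_left h3 (by positivity :
    0 ≤ 2 * (8 * M)⁻¹ + n * (c * ε) ^ 2)).trans ((mul_assoc _ _ _).symm.trans_le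
      (mul_le_mul_of_nonneg_right p6 (by positivity)))
  linarith

theorem Gr.dA (G : Gr D β a a' g) (hB : BasStmt I3 Y κ lam) (h : Bs D β) {u : κ → Y → β.m.A}
    (hu : Fo D β u) (o : Option κ) (x : Y × ℝ) :
    Bki64.dA D.Z (cy (bh β a 0)) (cy (bh β u 0)) (fun x => g x.1 ∘L β.m.p x.1) o x =
      opL (o.elim 0 fun k => u k x.1 - a' k x.1) := by
  have e := G.eq0 hB h
  let W : (κ → Y → β.m.A) → Option κ → Y × ℝ → En (Fin β.m.N) := fun b => (cy (bh β b 0)).W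
  have h1 : D.Z.D o (fun x => g x.1 ∘L β.m.p x.1) x + W a' o x ∘L g x.1 ∘L β.m.p x.1 -
    (g x.1 ∘L β.m.p x.1) ∘L W a o x = 0 := e.par x trivial o
  have h2 : (g x.1 ∘L β.m.p x.1) ∘L trn (g x.1 ∘L β.m.p x.1) = β.m.p x.1 :=
    Pj41.ad_trn (g x.1 ∘L β.m.p x.1) ▸ (e.iso.iso x trivial).tgt
  have h3 : W u o x = W a' o x + opL (o.elim 0 fun k => u k x.1 - a' k x.1) := by
    show β.W o x.1 + opL (o.elim 0 fun k => u k x.1) = β.W o x.1 + opL (o.elim 0 fun k => a' k x.1) + _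
    cases o <;> simp
  show (D.Z.D o (fun x => g x.1 ∘L β.m.p x.1) x + W u o x ∘L g x.1 ∘L β.m.p x.1 -
    (g x.1 ∘L β.m.p x.1) ∘L W a o x) ∘L trn (g x.1 ∘L β.m.p x.1) = _
  rw [h3, ContinuousLinearMap.add_comp, ← add_assoc, add_sub_right_comm, h1, zero_add,
    ContinuousLinearMap.comp_assoc, h2]
  refine Wz78.g_p' (mok h.adm) ?_
  cases o with
  | none => exact zero_mem _
  | some k => exact sub_mem (hu.mem k _) (G.fo'.mem k _)

theorem near (hB : BasStmt I3 Y κ lam) : NearStmt I3 Y κ lam := fun D β h hc j => by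
  obtain ⟨K₁, p1, H1⟩ := cor h hc (j + 3) j
  obtain ⟨C, hF⟩ := Cht98.exists_tame D.F (by rw [h.dim]; norm_num)
  obtain ⟨K₂, p2, H2⟩ := ncb D.F.toPre (j + 3) β.m.A
  have hcj : ContDiff ℝ ∞ (cj : En (Fin β.m.N) → CL β.m.A β.m.A) :=
    contMDiff_iff_contDiff.1 fun x => Eqv71.sa_cj contMDiffAt_id
  set R := ‖(1 : En (Fin β.m.N))‖ + 1 with hR
  obtain ⟨K₃, p3, H3⟩ := exists_GB R (j + 3 + 1) hcj
  have sp : Sm I3 β.m.p := (mok h.adm).sp
  obtain ⟨Cp, -, H4⟩ := Cb_of_compact (F := D.F.toPre) sp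
  set K₄ := cK κ (j + 3) * |cC R (j + 3 + 1) * K₃| * K₂ with hK₄
  have p4 : 0 ≤ K₄ := by have := cK_nonneg (ι := κ) (j + 3); positivity
  set K₅ := ‖(-opL : CL β.m.A _)‖ * (√|C 0| * (K₁ * (K₄ + 1))) with hK₅
  have p5 : 0 ≤ K₅ := by positivity
  set K₆ := 2 ^ (j + 1) * ‖ContinuousLinearMap.compL ℝ β.m.V β.m.V β.m.V‖ * |R| * |Cp j| with hK₆
  have p6 : 0 ≤ K₆ := by positivity
  refine ⟨j + 3 + 7, K₅ + K₆, by positivity, fun ε hε => ?_⟩
  obtain ⟨η, q0, H1⟩ := H1 (min ε 1) (by positivity)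
  refine ⟨η, q0, fun a ha hb b b0 hB' => ?_⟩
  obtain ⟨a', g, u, G, hu, s0, -, s2, s3⟩ := H1 a ha hb b b0
  have c1 : D.F.CB (j + 3) g R := by
    have := CB_add (contMDiff_const (c := 1)) (G.sm.sub contMDiff_const) (CB_const _ _)
      (CB_mono s0 (min_le_right _ _))
    rwa [show ((fun _ => 1) + fun y => g y - 1) = g from funext fun y => add_sub_cancel _ _] at this
  have sw : ∀ k, Sm I3 fun y => a' k y - u k y := fun k => (G.fo'.sm k).sub (hu.sm k)
  have c2 := s3 (K₄ * b) (by positivity) fun i k => by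
    rw [funext (G.By hB h i k)]
    refine (nrm_app (fun y => Eqv71.sa_cj (G.sm y)) (ha.smB h.adm i k) (CB_comp p3 G.sm hcj H3 c1)
      (FL_of_hcs _ (ha.smB h.adm i k) (.of_compactSpace _))).trans ?_
    rw [hK₄, mul_assoc _ K₂]
    exact mul_le_mul_of_nonneg_left ((H2 _ _ (ha.smB h.adm i k)
      (CB_of_le (hB' i k) (by omega))).trans_eq (by rw [abs_of_pos b0]))
      (by have := cK_nonneg (ι := κ) (j + 3); positivity)
  have c3 : ∀ k, D.F.CB j (fun y => (-opL : CL β.m.A _) (a' k y - u k y)) ((K₅ + K₆) * b) := fun k =>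
    CB_mono (CB_clm _ (sw k) (CB_mono (cbn (Sup.of_tame hF) (sw k) j)
      (mul_le_mul_of_nonneg_left (c2 k) (Real.sqrt_nonneg _))))
      (le_trans (le_of_eq (by rw [hK₅]; ring))
        (mul_le_mul_of_nonneg_right (le_add_of_nonneg_right p6) b0.le))
  have q1 : 0 ≤ (K₅ + K₆) * b := by positivity
  have L0 : ∀ (N : Type) [NormedAddCommGroup N] [NormedSpace ℝ N],
      Lb D.Z.toPre univ j (fun _ => (0 : N)) ((K₅ + K₆) * b) := fun N _ _ =>
    (Lb.const isOpen_univ _).mono (norm_zero.trans_le q1)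
  refine ⟨u, fun y => g y ∘L β.m.p y, hu, fun k => CB_mono (s2 k) (min_le_left _ _),
    CB_mono (CB_bil (ContinuousLinearMap.compL ℝ β.m.V β.m.V β.m.V) G.sm sp
      (CB_of_le c1 (by omega)) (H4 j)) (le_add_of_nonneg_left p5),
    isOpen_univ, ?_, fun o => ?_, ?_⟩
  · have e := (G.eq0 hB h).iso
    exact ⟨e.su, e.iso, e.J, e.ρ, e.j⟩
  · refine Lb.congr isOpen_univ ?_ fun x _ => G.dA hB h hu.toFo o x
    cases o with
    | none => exact (L0 (En (Fin β.m.N))).congr isOpen_univ fun x _ => map_zero _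
    | some k =>
      have := ((hB D β h.ok h.adm).2.2.2.2.2 _ j _).2 _ (smL _ (sw k)) (c3 k)
      rw [abs_of_nonneg q1] at this
      simp only [_root_.neg_apply, ← map_neg, neg_sub] at this
      exact this
  · exact (L0 β.m.V).congr isOpen_univ fun x _ => by
      show cs β.m.J 1 (g x.1 (β.m.p x.1 (β.Φ x.1 + 0))) - (β.Φ x.1 + 0) = 0
      simp [h.zr, cs]

end Crest.Agent.X212.Rdc90
end
end

-- ▼ part X212/Rd3/Main
section

/-!
# X212/Rd3/Main (helper3): RDEC on bounded gaps and on ends, from the leaves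
-/

set_option autoImplicit false
set_option linter.unusedSectionVars false
noncomputable section
open scoped Manifold ContDiff Topology InnerProductSpace
open MeasureTheory Set Function Filter Real

namespace Crest.Agent.X212.Rd3
open An Nd18 Cyf70 Rdc90 Bki64 Pj41
open Tmp64 (Eq0 AdmOn)
open Neck67 (Lb)

section gen
variable {E : Type} [NormedAddCommGroup E] [NormedSpace ℝ E] [FiniteDimensional ℝ E]
  [MeasurableSpace E] [BorelSpace E]
  {HM : Type} [TopologicalSpace HM] {I : ModelWithCorners ℝ E HM}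
  {M : Type} [TopologicalSpace M] [ChartedSpace HM M] [IsManifold I ∞ M]
  [MeasurableSpace M] {ι : Type} [Fintype ι] {lam : Type} [Fintype lam] {r r' r'' : ℕ}
  {F : Fr I M ι} {c : Cfg M ι lam r} {c' : Cfg M ι lam r'} {c'' : Cfg M ι lam r''}
  {u : M → CL c.m.V c'.m.V} {n : M → CL c'.m.V c''.m.V} {O : Set M} {k : ℕ} {η η' K : ℝ}

theorem lb_ad {V W : Type} [NormedAddCommGroup V] [InnerProductSpace ℝ V] [FiniteDimensional ℝ V]
    [NormedAddCommGroup W] [InnerProductSpace ℝ W] [FiniteDimensional ℝ W] {f : M → V →L[ℝ] W}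
    (hO : IsOpen O) (h : Lb F.toPre O k f K) (hK : 0 ≤ K) : Lb F.toPre O k (fun x => ad (f x)) K :=
  have := FiniteDimensional.complete ℝ V
  have := FiniteDimensional.complete ℝ W
  (h.clm hO adL).mono (mul_le_of_le_one_left hK
    (ContinuousLinearMap.opNorm_le_bound _ zero_le_one fun A => by
      rw [one_mul]
      exact (congrArg norm (ad_eq_adjoint A)).trans_le (LinearIsometryEquiv.norm_map _ A).le))

theorem lb_ap {α V : Type} [Fintype α] [NormedAddCommGroup V] [NormedSpace ℝ V] {f : M → Fm α V}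
    (hO : IsOpen O) (h : Lb F.toPre O k f η) (hη : 0 ≤ η) (a : α) :
    Lb F.toPre O k (fun x => f x a) η :=
  (h.clm hO (PiLp.proj 2 (fun _ : α => V) a)).mono (mul_le_of_le_one_left hη
    (ContinuousLinearMap.opNorm_le_bound _ zero_le_one fun v => by
      rw [one_mul]; exact PiLp.norm_apply_le v a))

/-- quantitative composition -/
theorem cl_comp (h : Cl F c c' u (fun _ => 1) O k η) (h' : Cl F c' c'' n (fun _ => 1) O k η')
    (hn : Lb F.toPre O k n K) (hJ : c''.m.J * c''.m.J = -1) (h0 : 0 ≤ η) (hK : 0 ≤ K) :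
    Cl F c c'' (fun x => n x ∘L u x) (fun _ => 1) O k (η' + 2 ^ k * K * (2 ^ k * K + 1) * η) := by
  have o := h.op
  have h1 := lb_ad o hn hK
  have e1 : η' + 2 ^ k * |K| * |2 ^ k * |η| * abs K| ≤
      η' + 2 ^ k * K * (2 ^ k * K + 1) * η ∧ η' + 2 ^ k * |K| * |η| ≤
      η' + 2 ^ k * K * (2 ^ k * K + 1) * η := by
    rw [abs_of_nonneg hK, abs_of_nonneg h0, abs_of_nonneg (by positivity)]
    have h2 : 0 ≤ 2 ^ k * K * η := by positivity
    have h3 : 0 ≤ 2 ^ k * K * (2 ^ k * K) * η := by positivity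
    constructor <;> nlinarith
  refine ⟨o, h.iso.trans h'.iso, fun a => ?_, ?_⟩
  · have h2 := (h'.A a).add o (hn.comp o ((h.A a).comp o h1))
    exact (h2.mono e1.1).congr o fun x hx => dA_comp h.iso h'.iso hx a
  · have h2 := h'.P.add o (hn.app o h.P)
    refine (h2.mono e1.2).congr o fun x hx => ?_
    have := dP_comp (u := u) hJ h'.iso hx 1 1
    rwa [mul_one, csB_apply, Circle.coe_one, Eqv71.cs_one] at this

/-- composition with an exact equivalence -/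
theorem cl_eq0 {c' : Cfg M ι lam 0} {u : M → CL c.m.V c'.m.V} {n : M → CL c'.m.V c''.m.V}
    (h : Eq0 F (noz c) c' O u) (h' : Cl F c' c'' n (fun _ => 1) O k η) :
    Cl F c c'' (fun x => n x ∘L u x) (fun _ => 1) O k η := by
  refine ⟨h'.op, h.iso.trans h'.iso, fun a => (h'.A a).congr h'.op fun x hx => ?_,
    h'.P.congr h'.op fun x hx => ?_⟩
  · rw [dA_comp (c := c) h.iso h'.iso hx a, show dA F c c' u a x = 0 by
      rw [dA, show cov F c c' u a x = 0 from h.par x hx a, ContinuousLinearMap.zero_comp]]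
    simp
  · rw [dP, dP, h.Φ x hx]
    rfl

end gen

/-! ### the weight -/

/-- the weight of a gap -/
def wt (l p q s : ℝ) : ℝ := exp (-l * (s - p)) + exp (-l * (q - s))

theorem wt_pos (l p q s : ℝ) : 0 < wt l p q s := by unfold wt; positivity

theorem wt_four {l p q s t : ℝ} (hl : 0 < l) (ht : t ∈ Ioo (s - 2) (s + 2)) :
    exp (-l * (t - (p - 3))) + exp (-l * (q + 3 - t)) ≤ (wt (l / 4) p q s ^ 2) ^ 2 := by
  have h1 : exp (-l * (t - (p - 3))) ≤ exp (-(l / 4) * (s - p)) ^ 4 := by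
    rw [← exp_nat_mul]
    exact exp_le_exp.2 (by push_cast; nlinarith [ht.1])
  have h2 : exp (-l * (q + 3 - t)) ≤ exp (-(l / 4) * (q - s)) ^ 4 := by
    rw [← exp_nat_mul]
    exact exp_le_exp.2 (by push_cast; nlinarith [ht.2])
  rw [← pow_mul]
  exact (add_le_add h1 h2).trans (pow_add_pow_le (exp_pos _).le (exp_pos _).le (by norm_num))

theorem wt_int {l p q : ℝ} (hl : 0 < l) {c : ℝ} (hc : 0 ≤ c) (s : ℝ) :
    |∫ t in (p + q) / 2..s, c * wt l p q t| ≤ c * wt l p q s / l := by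
  have h : ∀ t, HasDerivAt (fun t => c * (exp (-l * (q - t)) - exp (-l * (t - p))) / l)
      (c * wt l p q t) t := fun t =>
    ((((((hasDerivAt_id t).const_sub q).const_mul (-l)).exp.sub
      (((hasDerivAt_id t).sub_const p).const_mul (-l)).exp).const_mul c).div_const l).congr_deriv
      (by simp only [wt, id]; field_simp; ring)
  rw [intervalIntegral.integral_eq_sub_of_hasDerivAt (fun t _ => h t)
    (Continuous.intervalIntegrable (by unfold wt; fun_prop) _ _),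
    show q - (p + q) / 2 = (p + q) / 2 - p by ring, sub_self, mul_zero, zero_div, sub_zero, abs_div,
    abs_mul, abs_of_nonneg hc, abs_of_pos hl]
  gcongr
  rw [abs_le, wt]
  constructor <;> linarith [exp_pos (-l * (q - s)), exp_pos (-l * (s - p))]

theorem wt_le {l p q s : ℝ} (hl : 0 < l) : wt l p q s ≤ 2 * exp (-l * min (s - p) (q - s)) ∧
    wt l p q ((p + q) / 2) ≤ 2 * exp (-l * min (s - p) (q - s)) := by
  have h1 := min_le_left (s - p) (q - s)
  have h2 := min_le_right (s - p) (q - s)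
  have h : ∀ x, min (s - p) (q - s) ≤ x → exp (-l * x) ≤ exp (-l * min (s - p) (q - s)) :=
    fun x hx => exp_le_exp.2 (by nlinarith)
  rw [two_mul]
  exact ⟨add_le_add (h _ h1) (h _ h2), add_le_add (h _ (by linarith)) (h _ (by linarith))⟩

theorem wt_two {l p q s : ℝ} (hl : 0 < l) (hs : s ∈ Icc p q) : wt l p q s ≤ 2 :=
  (add_le_add (exp_le_one_iff.2 (by nlinarith [hs.1])) (exp_le_one_iff.2
    (by nlinarith [hs.2]))).trans_eq one_add_one_eq_two

theorem small (a : ℝ) {b : ℝ} (hb : 0 < b) : ∀ᶠ ε in 𝓝[>] (0 : ℝ), a * ε ≤ b :=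
  mem_nhdsWithin_of_mem_nhds ((continuous_const.mul continuous_id).continuousAt.eventually
    (ge_mem_nhds (by simpa using hb)))

variable {E3 : Type} [NormedAddCommGroup E3] [NormedSpace ℝ E3] [FiniteDimensional ℝ E3]
  [MeasurableSpace E3] [BorelSpace E3]
  {H3 : Type} [TopologicalSpace H3] {I3 : ModelWithCorners ℝ E3 H3} [I3.Boundaryless]
  {Y : Type} [TopologicalSpace Y] [ChartedSpace H3 Y] [IsManifold I3 ∞ Y] [T2Space Y]
  [MeasurableSpace Y] [BorelSpace Y] [SecondCountableTopology Y] [CompactSpace Y]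
  {κ : Type} [Fintype κ] {lam : Type} [Fintype lam]

/-- **RDEC on bounded gaps** -/
theorem dece (bas : BasStmt I3 Y κ lam) (loj : LojStmt I3 Y κ lam) (near : NearStmt I3 Y κ lam)
    (ipl : IplStmt I3 Y κ) (wn : WinStmt I3 Y κ lam) (cvx : CvxStmt I3 Y κ lam)
    (tmp : TmpStmt I3 Y κ lam) : DeceStmt I3 Y κ lam := by
  intro D β hb hc hp
  obtain ⟨-, b2, b3, b4, b5, b6⟩ := bas D β hb.ok hb.adm
  obtain ⟨l, hl, η₁, hη₁, j₁, C₁, hC₁, cv⟩ := cvx D β hb hp (loj D β hb hc)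
  have hl4 : 0 < l / 4 := by positivity
  refine ⟨l / 4, hl4, fun k B hB => ?_⟩
  obtain ⟨j₃, K₃, hK₃, tm⟩ := tmp D β hb.ok hb.adm hb.zr k
  obtain ⟨j₄, K₄, hK₄, nr⟩ := near D β hb hc k
  obtain ⟨η₄, hη₄, nr⟩ := nr B hB
  obtain ⟨j₅, K₅, hK₅, iF⟩ := ipl D.F hb.dim.le (Fm (Option κ × Option κ) β.m.A) (j₃ + j₄)
  obtain ⟨j₆, K₆, hK₆, iP⟩ := ipl D.F hb.dim.le β.m.V (j₃ + j₄)
  obtain ⟨C₅, b5⟩ := b5 hb.flat j₅
  obtain ⟨A, a1, a2, a3⟩ : ∃ A : ℝ, 1 ≤ A ∧ C₁ ≤ A ^ 2 ∧ C₅ ≤ A :=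
    ⟨1 + C₁ + |C₅|, by linarith [abs_nonneg C₅], by nlinarith [abs_nonneg C₅],
      by linarith [le_abs_self C₅]⟩
  obtain ⟨ε, ⟨e1, e2, e3, e4, e5, e6⟩, e0⟩ := (((small 1 hη₁).and ((small 1 one_pos).and
    ((small 1 hη₄).and ((small (2 * ((K₅ + K₆ + 1) * A)) one_pos).and
    ((small (2 * ((K₅ + K₆ + 1) * A)) hl4).and (small (2 * (K₄ + 2 ^ k * K₄ * (2 ^ k * K₄ + 1) *
      (K₃ * (1 + 1 / (l / 4)))) * ((K₅ + K₆ + 1) * A)) hB)))))).and self_mem_nhdsWithin).exists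
  replace e0 : 0 < ε := e0
  rw [one_mul] at e1 e2 e3
  obtain ⟨η, hη, w⟩ := wn D β hb.ok hb.adm hb.zr (j₁ + j₃ + j₄ + j₅ + j₆ + 1) ε e0
  refine ⟨η, hη, fun r c p q hpq hN => ?_⟩
  obtain ⟨α, Φ, u, sv, eq, lα, lΦ, -, hu⟩ := w r c p q hpq hN
  have ho : IsOpen (univ ×ˢ Ioo (p - 4) (q + 4) : Set (Y × ℝ)) := isOpen_univ.prod isOpen_Ioo
  have sub : ∀ s ∈ Icc p q, ∀ L ≤ 4, win Y s L ⊆ univ ×ˢ Ioo (p - 4) (q + 4) := fun s hs L hL =>
    prod_mono_right (Ioo_subset_Ioo (by linarith [hs.1]) (by linarith [hs.2]))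
  obtain ⟨z1, z2, z3⟩ := b3 α Φ sv
  have cv := cv α Φ sv (Ioo (p - 4) (q + 4)) ε (p - 3) (q + 3) isOpen_Ioo
    (Icc_subset_Ioo (by linarith) (by linarith)) e0.le e1 eq (lα.of_le (by omega))
    (lΦ.of_le (by omega))
  obtain ⟨c₀, hc₀⟩ : ∃ c₀, c₀ = (K₅ + K₆ + 1) * A * ε := ⟨_, rfl⟩
  have p0 : 0 < c₀ := by rw [hc₀]; positivity
  have key : ∀ s ∈ Icc p q,
      Lb D.Z.toPre (win Y s 1) (j₃ + j₄) ((zc β α Φ).m.Fg D.Z (zc β α Φ).W)
        (c₀ * wt (l / 4) p q s) ∧ Lb D.Z.toPre (win Y s 1) (j₃ + j₄) Φ (c₀ * wt (l / 4) p q s) :=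
    fun s hs => by
      have w0 := wt_pos (l / 4) p q s
      have h1 : ∀ t ∈ Ioo (s - 2) (s + 2), GF D (zc β α Φ) t + GP D (zc β α Φ) t ≤
          (A * ε * wt (l / 4) p q s ^ 2) ^ 2 := fun t ht =>
        (cv t ⟨by linarith [ht.1, hs.1], by linarith [ht.2, hs.2]⟩).trans (by
          rw [mul_pow, mul_pow]
          gcongr
          exact wt_four hl ht)
      have h2 : √(A * ε * wt (l / 4) p q s ^ 2 * (A * ε)) = A * ε * wt (l / 4) p q s := by
        rw [sqrt_eq_iff_mul_self_eq_of_pos (by positivity)]; ring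
      have h3 : ∀ K, K ≤ K₅ + K₆ + 1 → K * √(A * ε * wt (l / 4) p q s ^ 2 * (A * ε)) ≤
          c₀ * wt (l / 4) p q s := fun K hK => by
        rw [h2, hc₀, mul_assoc (K₅ + K₆ + 1), mul_assoc (K₅ + K₆ + 1)]
        gcongr
      have g1 : ∀ t, 0 ≤ GF D (zc β α Φ) t := fun t => integral_nonneg fun _ => by positivity
      have g2 : ∀ t, 0 ≤ GP D (zc β α Φ) t := fun t => integral_nonneg fun _ => by positivity
      refine ⟨(iF _ s _ (A * ε) (by positivity) (by positivity) ((b5 α Φ sv _ ε (win_op s 2) e2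
        ((lα.of_le (by omega)).sub (sub s hs 2 (by norm_num)))).mono (by gcongr))
        fun t ht => (le_add_of_nonneg_right (g2 t)).trans (h1 t ht)).mono (h3 _ (by linarith)),
        (iP _ s _ (A * ε) (by positivity) (by positivity) ((lΦ.of_le (by omega)).mono'
        (sub s hs 2 (by norm_num)) (le_mul_of_one_le_left e0.le a1)) fun t ht => ?_).mono
        (h3 _ (by linarith))⟩
      refine le_trans (le_of_eq ?_) ((le_add_of_nonneg_left (g1 t)).trans (h1 t ht))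
      refine integral_congr_ae (Eventually.of_forall fun y => ?_)
      change _ = ‖β.Φ y + Φ (y, t)‖ ^ 2
      rw [hb.zr, zero_add]
  have t0 : (p + q) / 2 ∈ Icc p q := ⟨by linarith, by linarith⟩
  obtain ⟨g, hg⟩ := tm α Φ sv p q _ (fun s => c₀ * wt (l / 4) p q s) t0
    (by unfold wt; fun_prop) fun s hs => by
      have w0 := wt_pos (l / 4) p q s
      have w1 := mul_le_mul_of_nonneg_left (wt_two hl4 hs) p0.le
      refine ⟨by positivity, by linarith, (wt_int hl4 p0.le s).trans ?_,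
        (lα.of_le (by omega)).mono' (sub s hs 1 (by norm_num)) e2,
        (key s hs).2.of_le (by omega), (key s hs).1.of_le (by omega)⟩
      rw [div_le_one hl4]
      linarith
  have m0 : ∀ y : Y, (y, (p + q) / 2) ∈ win Y ((p + q) / 2) 1 := fun y =>
    ⟨trivial, by linarith, by linarith⟩
  have w0 := wt_pos (l / 4) p q ((p + q) / 2)
  obtain ⟨h, n, n1, n2, n3, n4⟩ := nr _ (z2 ((p + q) / 2)) (fun i => (b6 _ j₄ η₄).1
    (fun x => α x (some i)) _ _ ((PiLp.proj 2 (fun _ => β.m.A) (some i)).contMDiff.comp sv.sα) m0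
    (lb_ap (win_op _ 1) ((lα.of_le (by omega)).mono' (sub _ t0 1 (by norm_num)) e3) hη₄.le _))
    (c₀ * wt (l / 4) p q ((p + q) / 2)) (by positivity) fun i j => by
      rw [show By D β (sl β α ((p + q) / 2)) i j = _ from funext fun y => (z3 hb.flat y _ i j).symm]
      exact (b6 β.m.A j₄ _).1 (fun x => (zc β α Φ).m.Fg D.Z (zc β α Φ).W x (some i, some j)) _ _
        (Wz78.sm_Fg hb.ok.G z1.conn (Std94.sm_pg hb.ok.B z1.ok) _) m0
        (lb_ap (win_op _ 1) ((key _ t0).1.of_le (by omega)) (by positivity) _)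
  refine ⟨h, n1, n2, b2 h 0 n1.toFo ⟨contMDiff_const, fun x => map_zero _⟩,
    b4 hb.flat h 0 n1.toFo fun i j y => by rw [By, n1.ed, hc h n1, add_zero],
    fun x => (n x.1 ∘L g x) ∘L u x, fun s hs => ?_⟩
  have w1 := wt_pos (l / 4) p q s
  have sn : Sm I3 n := fun y => sm_slice (t := 0) (n4.iso.su _ trivial)
  refine cl_eq0 (hu.mono (sub s hs 1 (by norm_num))) ((cl_comp (hg s hs)
    (n4.mono (win_op s 1) (subset_univ _) le_rfl le_rfl)
    ((((b6 _ k K₄).2 n sn n3).sub (subset_univ _)).mono (abs_of_nonneg hK₄).le)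
    hb.adm.adm.ok.Jsq (by positivity) hK₄).mono (win_op s 1) Subset.rfl le_rfl ?_)
  obtain ⟨v1, v2⟩ := wt_le (p := p) (q := q) (s := s) hl4
  have v3 := wt_int (p := p) (q := q) hl4 p0.le s
  calc _ ≤ K₄ * (c₀ * (2 * exp (-(l / 4) * min (s - p) (q - s)))) + 2 ^ k * K₄ * (2 ^ k * K₄ + 1) *
        (K₃ * (c₀ * (2 * exp (-(l / 4) * min (s - p) (q - s))) +
          c₀ * (2 * exp (-(l / 4) * min (s - p) (q - s))) / (l / 4))) := by
        gcongr
        exact v3.trans (by gcongr)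
    _ = 2 * (K₄ + 2 ^ k * K₄ * (2 ^ k * K₄ + 1) * (K₃ * (1 + 1 / (l / 4)))) * ((K₅ + K₆ + 1) * A) *
        ε * exp (-(l / 4) * min (s - p) (q - s)) := by rw [hc₀]; ring
    _ ≤ _ := by gcongr

/-- **RDEC on ends** -/
theorem ends (de : DeceStmt I3 Y κ lam) (out : OutgStmt I3 Y κ lam) : EndStmt I3 Y κ lam := by
  intro D β hb hc hp
  obtain ⟨d, hd, de⟩ := de D β hb hc hp
  refine ⟨d, hd, fun r c σ T ζ hσ ha he hl => out D β hb.ok hb.adm r c σ d T ζ hσ hd ha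
    (fun k => ?_) hl⟩
  obtain ⟨η, hη, de⟩ := de k 1 one_pos
  obtain ⟨u, hu⟩ := hl
  obtain ⟨T₁, h1⟩ := hu ⌈η⁻¹⌉₊ η hη
  obtain ⟨a, a0, a1, a2⟩ : ∃ a : ℝ, 0 ≤ a ∧ T + η⁻¹ ≤ a ∧ T₁ + η⁻¹ ≤ a :=
    ⟨max 0 (max (T + η⁻¹) (T₁ + η⁻¹)), le_max_left _ _,
      (le_max_left _ _).trans (le_max_right _ _), (le_max_right _ _).trans (le_max_right _ _)⟩
  have e1 : 1 ≤ exp (d * a) := one_le_exp (by positivity)
  refine ⟨exp (d * a), a, fun s hs => ?_⟩
  obtain ⟨h, n1, n2, -, -, v, hv⟩ := de r c (s - (σ * s - a)) (s + (σ * s - a)) (by linarith)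
    fun t ht => by
      have sub : ∀ T', T' + η⁻¹ ≤ a → win Y t η⁻¹ ⊆ univ ×ˢ {s | T' < σ * s} := fun T' h =>
        prod_mono_right fun x hx => show T' < σ * x by
          rcases hσ with rfl | rfl <;> linarith [ht.1, ht.2, hx.1, hx.2]
      exact ⟨ha.mono (sub T a1), fun x hx => he x (sub T a1 hx), u, ζ, Cl.cls hb.adm isOpen_Ioo
        (ha.mono (sub T a1)) (h1.mono (win_op _ _) (sub T₁ a2) le_rfl le_rfl)⟩
  refine ⟨h, 0, v, 1, n1.toFo, ⟨contMDiff_const, fun x => map_zero _⟩,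
    fun i => Sob92.CB_mono (n2 i) e1,
    Sob92.CB_mono (Sob92.CB_const k 0) (by simpa using e1.trans' zero_le_one),
    (hv s ⟨by linarith, by linarith⟩).mono (win_op s 1) Subset.rfl le_rfl (le_of_eq ?_)⟩
  rw [sub_sub_cancel, add_sub_cancel_left, min_self, one_mul, ← exp_add,
    show |s| = σ * s by
      rcases hσ with rfl | rfl
      · rw [abs_of_nonneg (by linarith), one_mul]
      · rw [abs_of_nonpos (by linarith), neg_one_mul]]
  congr 1
  ring

end Crest.Agent.X212.Rd3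
end
end

-- ▼ part X212/Rd3/Win
section

/-!
# X212/Rd3/Win (helper3): RD-WIN, one global small configuration
-/

set_option autoImplicit false
set_option linter.unusedSectionVars false
noncomputable section
open scoped Manifold ContDiff Topology InnerProductSpace
open MeasureTheory Set Function Filter Real

namespace Crest.Agent.X212.Rd3
open An Nd18 Cyf70 Rdc90 Bki64 Pj41
open Tmp64 (Eq0 AdmOn sq sw sqC sqM psh)
open Neck67 (Lb)
open Wz78 (nab dir curv)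

section gen
variable {E : Type} [NormedAddCommGroup E] [NormedSpace ℝ E] [FiniteDimensional ℝ E]
  [MeasurableSpace E] [BorelSpace E]
  {HM : Type} [TopologicalSpace HM] {I : ModelWithCorners ℝ E HM}
  {M : Type} [TopologicalSpace M] [ChartedSpace HM M] [IsManifold I ∞ M]
  [MeasurableSpace M] {ι : Type} [Fintype ι] {lam : Type} [Fintype lam] {r : ℕ}
  {B : Base M ι lam} {G : Geo I M ι lam} {O : Set M}

theorem lb_pi (F : Pre I M ι) (α V : Type) [Fintype α] [NormedAddCommGroup V] [NormedSpace ℝ V] :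
    ∃ K : ℝ, ∀ (f : M → Fm α V) (O : Set M) (k : ℕ) (C : ℝ), IsOpen O → 0 ≤ C →
      (∀ a, Lb F O k (fun x => f x a) C) → Lb F O k f (K * C) := by
  classical
  let L : α → V →L[ℝ] Fm α V := fun a =>
    (PiLp.continuousLinearEquiv 2 ℝ fun _ : α => V).symm.toContinuousLinearMap ∘L
      ContinuousLinearMap.single ℝ (fun _ : α => V) a
  refine ⟨Fintype.card α * ∑ a, ‖L a‖, fun f O k C hO hC h => ((Lb.sum hO Finset.univ fun a _ =>
    ((h a).clm hO (L a)).mono (mul_le_mul_of_nonneg_right (Finset.single_le_sum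
      (fun a _ => norm_nonneg (L a)) (Finset.mem_univ a)) hC)).mono
        (mul_assoc _ _ _).ge).congr hO fun x _ => ?_⟩
  ext1 a
  simp [L, Pi.single_apply, Finset.sum_apply]

theorem admOn_loc {c : Cfg M ι lam r} {O₀ : Set M} (h0 : AdmOn c B G O₀)
    (h : ∀ x ∈ O, ∃ O', x ∈ O' ∧ AdmOn c B G O') : AdmOn c B G O :=
  ⟨OKOn.of_local h0.ok.Jsq h0.ok.Jsk fun x hx => (h x hx).imp fun _ k => ⟨k.1, k.2.ok⟩,
    ConnOn.of_local fun x hx => (h x hx).imp fun _ k => ⟨k.1, k.2.conn⟩,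
    fun x hx => let ⟨_, k, k'⟩ := h x hx; k'.sm x k, fun x hx => let ⟨_, k, k'⟩ := h x hx; k'.pos x k,
    h0.z⟩

theorem eq0_vr {F : Fr I M ι} {c : Cfg M ι lam r} {c₀ : Cfg M ι lam 0} {u : M → CL c.m.V c₀.m.V}
    {α : M → Fm ι c₀.m.A} {φ : M → c₀.m.V} (hu : Iso0 I c.m c₀.m O u)
    (h : ∀ x ∈ O, ∀ a, cov F c c₀ u a x = -(opL (α x a) ∘L u x))
    (hΦ : ∀ x ∈ O, c₀.Φ x + φ x = u x (c.Φ x)) : Eq0 F (noz c) (vr c₀ α φ) O u := by
  refine ⟨hu, fun x hx a => ?_, hΦ, Subsingleton.elim _ _⟩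
  have : F.D a u x + (c₀.W a x + opL (α x a)) ∘L u x - u x ∘L c.W a x = 0 := by
    rw [← eq_neg_iff_add_eq_zero.1 (h x hx a), cov, ContinuousLinearMap.add_comp]
    abel
  exact this

/-- a configuration is a variation of any other one on an isomorphic module -/
theorem exists_vr (hB : B.OK I) (hG : G.OK B) {c c₀ : Cfg M ι lam 0} (hc : c.Adm B G)
    (h₀ : c₀.Adm B G) {u : M → CL c.m.V c₀.m.V} (hu : Iso0 I c.m c₀.m univ u) :
    ∃ α : M → Fm ι c₀.m.A, Sm I α ∧ (∀ x, c₀.m.p1 B x (α x) = α x) ∧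
      (Sm I fun x => u x (c.Φ x)) ∧ (∀ x, c₀.m.pp B x (u x (c.Φ x)) = u x (c.Φ x)) ∧
      ∀ x a, cov G.F c c₀ u a x = -(opL (α x a) ∘L u x) := by
  obtain ⟨h1, h2⟩ := Tmp64.psh_spec hB hG.P hc h₀.ok hu
  have h3 : c₀.m.IsConn B G (pshC G.F u c.W) := h1.conn
  refine ⟨_, Spn45.sm_dif h₀.ok h₀.conn h3, Spn45.p1_dif h₀.conn h3 h₀.ok, h1.sm, h1.pos,
    fun x a => ?_⟩
  have h4 : G.F.D a u x + pshC G.F u c.W a x ∘L u x - u x ∘L c.W a x = 0 := h2.par x trivial a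
  rw [Spn45.dif_apply, Wz78.opL_hsL, ← Spn45.sub_p h₀.conn h3, ContinuousLinearMap.mul_def,
    ContinuousLinearMap.comp_assoc, (hu.iso x trivial).left, ContinuousLinearMap.sub_comp,
    eq_neg_iff_add_eq_zero, ← h4, cov]
  abel

end gen

theorem exists_clamp (m : ℝ) {R : ℝ} (hR : 0 < R) : ∃ θ : ℝ → ℝ, ContDiff ℝ ∞ θ ∧
    (∀ s, θ s ∈ Icc (m - (R + 1)) (m + (R + 1))) ∧ ∀ s ∈ Ioo (m - R) (m + R), θ s = s := by
  let f : ContDiffBump m := ⟨R, R + 1, hR, by linarith⟩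
  refine ⟨fun s => m + f s * (s - m), contDiff_const.add (f.contDiff.mul (by fun_prop)),
    fun s => ?_, fun s hs => ?_⟩
  · have : |f s * (s - m)| ≤ R + 1 := by
      by_cases h : |s - m| < R + 1
      · rw [abs_mul, abs_of_nonneg f.nonneg]
        exact (mul_le_of_le_one_left (abs_nonneg _) f.le_one).trans h.le
      · rw [f.zero_of_le_dist (not_lt.1 h), zero_mul, abs_zero]
        positivity
    exact ⟨by linarith [(abs_le.1 this).1], by linarith [(abs_le.1 this).2]⟩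
  · show m + f s * (s - m) = s
    rw [f.one_of_mem_closedBall (show |s - m| ≤ R from
      abs_le.2 ⟨by linarith [hs.1], by linarith [hs.2]⟩), one_mul, add_sub_cancel]

variable {E3 : Type} [NormedAddCommGroup E3] [NormedSpace ℝ E3] [FiniteDimensional ℝ E3]
  [MeasurableSpace E3] [BorelSpace E3]
  {H3 : Type} [TopologicalSpace H3] {I3 : ModelWithCorners ℝ E3 H3} [I3.Boundaryless]
  {Y : Type} [TopologicalSpace Y] [ChartedSpace H3 Y] [IsManifold I3 ∞ Y] [T2Space Y]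
  [MeasurableSpace Y] [BorelSpace Y] [SecondCountableTopology Y] [CompactSpace Y]
  {κ : Type} [Fintype κ] {lam : Type} [Fintype lam]

/-- slowly varying phases are bounded -/
theorem lb_phase (F : Pre I3 Y κ) (k : ℕ) : ∃ A ≥ (1 : ℝ), ∀ (θ : ℝ → ℝ) (O : Set (Y × ℝ)),
    IsOpen O → ContDiff ℝ ∞ θ → (∀ j, 1 ≤ j → j ≤ k → ∀ t, |iteratedDeriv j θ t| ≤ 1) →
    Lb (cylP F) O k (fun x => Complex.exp (-(θ x.2 * Complex.I))) A := by
  have sm : ∀ {θ : ℝ → ℝ}, ContDiff ℝ ∞ θ → ContDiff ℝ ∞ fun t => Complex.exp (-(θ t * Complex.I)) :=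
    fun h => ((Complex.ofRealCLM.contDiff.comp h).mul contDiff_const).neg.cexp
  have h0 : ∀ (θ : ℝ → ℝ) (O : Set (Y × ℝ)), ContDiff ℝ ∞ θ →
      Lb (cylP F) O 0 (fun x => Complex.exp (-(θ x.2 * Complex.I))) 1 := fun θ O h x _ =>
    ⟨sm_snd (sm h) x, by simp [Complex.norm_exp]⟩
  induction k with
  | zero => exact ⟨1, le_rfl, fun θ O _ h _ => h0 θ O h⟩
  | succ k ih =>
    obtain ⟨A, hA, ih⟩ := ih
    refine ⟨max 1 (2 ^ k * |1| * |‖ContinuousLinearMap.mul ℝ ℂ (-Complex.I)‖ * A|), le_max_left _ _,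
      fun θ O hO h hb => ⟨(h0 θ O h).mono (le_max_left _ _), fun a => ?_⟩⟩
    cases a with
    | some a => rw [D_some_snd F (sm h)]; exact (Lb.const hO 0).mono (by simp)
    | none =>
      rw [D_none_snd F (sm h)]
      refine (((lb_snd hO zero_le_one (contDiff_infty_iff_deriv.1 h).2 fun j hj x _ => by
        rw [← iteratedDeriv_succ']; exact hb _ (by omega) (by omega) _).smul hO
        ((ih θ O hO h fun j a b => hb j a (by omega)).clm hO
          (ContinuousLinearMap.mul ℝ ℂ (-Complex.I)))).mono (le_max_right _ _)).congr hO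
        fun x _ => ?_
      refine (((h.differentiable (by simp)) x.2).hasDerivAt.ofReal_comp.mul_const
        Complex.I).neg.cexp.deriv.trans ?_
      simp [mul_comm, mul_left_comm, mul_assoc]

variable {D : YD I3 Y κ lam} {r : ℕ} {c : Cfg (Y × ℝ) (Option κ) lam r} {θ : ℝ → ℝ} {J : Set ℝ}

theorem sq_ev (hJ : IsOpen J) (h : ∀ s ∈ J, θ s = s) {x : Y × ℝ} (hx : x ∈ univ ×ˢ J) :
    ∀ᶠ y in 𝓝 x, sq θ y = y ∧ ∀ a : Option κ, sw θ a y.2 = 1 := by
  filter_upwards [(isOpen_univ.prod hJ).mem_nhds hx] with y hy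
  refine ⟨Prod.ext rfl (h _ hy.2), fun a => ?_⟩
  cases a with
  | none =>
    exact (EventuallyEq.deriv_eq (f := id) (Eventually.mono (hJ.mem_nhds hy.2) h)).trans
      (deriv_id _)
  | some a => rfl

theorem eqs_sq (hJ : IsOpen J) (h : ∀ s ∈ J, θ s = s) (he : Eqs D c (univ ×ˢ J)) :
    Eqs D (sqC θ (noz c)) (univ ×ˢ J) := fun x hx => by
  have e := sq_ev (κ := κ) hJ h hx
  have e0 := e.self_of_nhds.1
  have e1 : ∀ a, (fun y => sw θ a y.2 • c.W a (sq θ y)) =ᶠ[𝓝 x] c.W a := fun a =>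
    e.mono fun y hy => by simp only [hy.1, hy.2, one_smul]
  have e2 : (fun y => c.Φ (sq θ y)) =ᶠ[𝓝 x] c.Φ := e.mono fun y hy => by simp only [hy.1]
  refine ⟨?_, ?_⟩
  · refine Eq.trans ?_ (he x hx).1
    change ∑ a, c.m.ρ a (sq θ x) (D.Z.D a (fun y => c.Φ (sq θ y)) x +
      (sw θ a x.2 • c.W a (sq θ x)) (c.Φ (sq θ x))) = _
    simp only [Pre.D_def, Sob92.dv_congr e2, e0, e.self_of_nhds.2, one_smul]
    rfl
  · have := (he x hx).2
    change idx (D.B.sd x) (c.m.pg (sq θ x)) (WithLp.toLp 2 fun s => c.m.pg (sq θ x) (hsL (curv _ _ _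
      (fun a y => sw θ a y.2 • c.W a (sq θ y)) s.1 s.2 x))) = idx (D.B.sd x) (c.m.pg (sq θ x))
      (WithLp.toLp 2 fun s => c.m.q (sq θ x) (c.Φ (sq θ x))
        (c.m.ρ s.1 (sq θ x) (c.m.ρ s.2 (sq θ x) (c.Φ (sq θ x)))))
    simp only [curv, Sob92.dv_congr (e1 _), e0, e.self_of_nhds.2, one_smul]
    exact this

theorem cov_sq (hJ : IsOpen J) (h : ∀ s ∈ J, θ s = s) {r' : ℕ} {c' : Cfg (Y × ℝ) (Option κ) lam r'}
    {u : Y × ℝ → CL c.m.V c'.m.V} {x : Y × ℝ} (hx : x ∈ univ ×ˢ J) (a : Option κ) :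
    cov D.Z c c' u a x = cov D.Z (sqC θ (noz c)) c' (fun x => u (sq θ x)) a x := by
  have e := sq_ev (κ := κ) hJ h hx
  have e' : D.Z.D a (fun x => u (sq θ x)) x = D.Z.D a u x :=
    Sob92.dv_congr (e.mono fun y hy => congrArg u hy.1)
  change _ = D.Z.D a (fun x => u (sq θ x)) x + c'.W a x ∘L u (sq θ x) -
    u (sq θ x) ∘L (sw θ a x.2 • c.W a (sq θ x))
  rw [e', e.self_of_nhds.1, e.self_of_nhds.2, one_smul, cov]

theorem eqs_eq0 (hD : D.OK) {c c' : Cfg (Y × ℝ) (Option κ) lam r} (hc : c.Adm D.B D.G)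
    (hc' : c'.Adm D.B D.G) {u : Y × ℝ → CL c.m.V c'.m.V} (h : Eq0 D.Z c c' univ u)
    {O : Set (Y × ℝ)} (he : Eqs D c O) : Eqs D c' O := fun x hx => by
  have k := Eq0.lm (G := D.G) h isOpen_univ hD.B hD.G hc hc'
  have e := k.me x trivial
  have b := k.be x trivial
  refine ⟨(k.dir (mem_univ x) (hc.sm x) (hc'.sm x) (Eventually.of_forall fun y =>
    h.Φ y trivial)).trans ((congrArg (u x) (he x hx).1).trans (map_zero _)), ?_⟩
  have h1 := k.Fg (mem_univ x)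
  have h2 := e.mu b hD.B hD.B hc.ok hc'.ok (c.Φ x) (c.Φ x)
  rw [← h.Φ x trivial, ← (he x hx).2, ← e.p2 b hD.B hD.B hc.ok hc'.ok] at h2
  exact (congrArg (c'.m.p2 D.B x) h1).trans h2.symm

/-- **RD-WIN** -/
theorem winStmt : WinStmt I3 Y κ lam := by
  intro D β hD hβ hz j ε hε
  obtain ⟨A, -, hA⟩ := lb_phase D.F.toPre j
  obtain ⟨K, hK⟩ := lb_pi D.Z.toPre (Option κ) β.m.A
  obtain ⟨δ, ⟨e1, e2, e3⟩, e0⟩ := (((small 1 one_pos).and
    ((small (K * ‖(-hsL : CL (En (Fin β.m.N)) β.m.A)‖) hε).and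
    (small (2 ^ j * |‖csB β.m.J‖ * A|) hε))).and self_mem_nhdsWithin).exists
  replace e0 : 0 < δ := e0
  obtain ⟨η, hη, g1⟩ := g1' hD hβ j e0
  have h0 : 0 < min η 12⁻¹ := lt_min hη (by norm_num)
  have h1 : 12 ≤ (min η 12⁻¹)⁻¹ := by simpa using inv_anti₀ h0 (min_le_right _ _)
  refine ⟨_, h0, fun r c p q hpq hN => ?_⟩
  have near : ∀ s ∈ Icc (p - 5) (q + 5), ∃ s' ∈ Icc p q,
      win Y s 7 ⊆ win Y s' (min η 12⁻¹)⁻¹ := fun s hs =>
    ⟨max p (min s q), ⟨le_max_left _ _, max_le hpq (min_le_right _ _)⟩, win_sub (by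
      have : |s - max p (min s q)| ≤ 5 := by
        rw [abs_le, max_def, min_def]
        split_ifs <;> constructor <;> linarith [hs.1, hs.2]
      linarith)⟩
  obtain ⟨u, ϑ, hu⟩ := g1 r c _ ordConnected_Icc fun s hs => by
    obtain ⟨s', a, b⟩ := near s hs
    obtain ⟨a1, -, u, ζ, a2⟩ := hN s' a
    exact ⟨a1.mono b, u, ζ, Cn.mono (cl_of_cls hβ a1 a2) (win_op _ _) b h0 (min_le_left _ _)⟩
  have ad : AdmOn c D.B D.G (univ ×ˢ Icc (p - 5) (q + 5)) :=
    admOn_loc (hN p ⟨le_rfl, hpq⟩).1 fun x hx =>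
      let ⟨s', a, b⟩ := near x.2 hx.2
      ⟨_, b ⟨trivial, by linarith, by linarith⟩, (hN s' a).1⟩
  obtain ⟨θ, t1, t2, t3⟩ := exists_clamp ((p + q) / 2) (R := (q - p) / 2 + 4) (by linarith)
  rw [show (p + q) / 2 - ((q - p) / 2 + 4) = p - 4 by ring,
    show (p + q) / 2 + ((q - p) / 2 + 4) = q + 4 by ring] at t3
  rw [show (p + q) / 2 - ((q - p) / 2 + 4 + 1) = p - 5 by ring,
    show (p + q) / 2 + ((q - p) / 2 + 4 + 1) = q + 5 by ring] at t2
  have ho : IsOpen (univ ×ˢ Ioo (p - 4) (q + 4) : Set (Y × ℝ)) := isOpen_univ.prod isOpen_Ioo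
  have s1 : (univ ×ˢ Ioo (p - 4) (q + 4) : Set (Y × ℝ)) ⊆ univ ×ˢ Icc (p - 5) (q + 5) :=
    prod_mono_right fun t ht => ⟨by linarith [ht.1], by linarith [ht.2]⟩
  have s2 : (univ ×ˢ Icc (p - 5) (q + 5) : Set (Y × ℝ)) ⊆
      univ ×ˢ Metric.thickening 1 (Icc (p - 5) (q + 5)) :=
    prod_mono_right (Metric.self_subset_thickening one_pos _)
  have m : ∀ x : Y × ℝ, sq θ x ∈ univ ×ˢ Metric.thickening 1 (Icc (p - 5) (q + 5)) := fun x =>
    s2 ⟨trivial, t2 _⟩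
  have c1 : (sqC θ (noz c)).Adm D.B D.G := (cyD D).adm_sq_of_band t1 t2
    (⟨ad.ok, ad.conn, ad.sm, ad.pos, .inl rfl⟩ : AdmOn (noz c) D.B D.G _)
  have i := hu.cl.iso
  have i' : Iso0 (IC I3) (sqC θ (noz c)).m (cy β).m univ fun x => u (sq θ x) :=
    ⟨fun x _ => Tmp64.fsm_sq t1 (i.su _ (m x)), fun x _ => i.iso _ (m x),
      fun x _ => i.J _ (m x), fun x _ => i.ρ _ (m x), fun x _ => i.j _ (m x)⟩
  obtain ⟨α, a1, a2, a3, a4, a5⟩ := exists_vr hD.B hD.G c1 hβ.adm i'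
  obtain ⟨Φ, hΦ⟩ : ∃ Φ : Y × ℝ → β.m.V, Φ = fun x => u (sq θ x) (c.Φ (sq θ x)) := ⟨_, rfl⟩
  have sv : Sv D β α Φ := hΦ ▸ ⟨a1, a2, a3, a4⟩
  have z : ∀ x, β.Φ x.1 + Φ x = Φ x := fun x => by rw [hz, zero_add]
  have c2 : (zc β α Φ).Adm D.B D.G := ⟨hβ.adm.ok, Spn45.isConn_addC hβ.adm.ok hβ.adm.conn a1 a2,
    hβ.adm.sm.add sv.sΦ, fun x => (congrArg _ (z x)).trans ((sv.pos x).trans (z x).symm), .inl rfl⟩
  have e : ∀ x ∈ (univ ×ˢ Ioo (p - 4) (q + 4) : Set (Y × ℝ)), sq θ x = x := fun x hx =>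
    Prod.ext rfl (t3 _ hx.2)
  have cl := hu.cl.mono ho (s1.trans s2) le_rfl le_rfl
  have cv : ∀ x ∈ (univ ×ˢ Ioo (p - 4) (q + 4) : Set (Y × ℝ)), ∀ a,
      cov D.Z c (cy β) u a x = -(opL (α x a) ∘L u x) := fun x hx a =>
    ((cov_sq isOpen_Ioo t3 hx a).trans (a5 x a)).trans (by rw [e x hx]; rfl)
  refine ⟨α, Φ, u, sv, eqs_eq0 hD (c := noz (sqC θ (noz c))) ⟨c1.ok, c1.conn, c1.sm, c1.pos, c1.z⟩
    c2 (eq0_vr i' (fun x _ => a5 x) fun x _ => (z x).trans (congrFun hΦ x))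
    (eqs_sq isOpen_Ioo t3 fun x hx => ?_),
    (hK α _ j _ ho (by positivity) fun a => ((cl.A a).clm ho (-hsL)).congr ho
      fun x hx => ?_).mono (by rw [← mul_assoc]; exact e2),
    ((((hA ϑ _ ho hu.sm fun i a b t => (hu.bd i a (by omega) t).trans (by linarith)).clm ho
      (csB β.m.J)).app ho cl.P).mono (by rw [abs_of_pos e0]; exact e3)).congr ho fun x hx => ?_,
    ad.mono s1, eq0_vr cl.iso cv fun x hx => (z x).trans (by rw [hΦ]; simp only [e x hx]; rfl)⟩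
  · obtain ⟨s', a, b⟩ := near x.2 (s1 hx).2
    exact (hN s' a).2.1 x (b ⟨trivial, by linarith, by linarith⟩)
  · rw [dA, cv x hx, ContinuousLinearMap.neg_comp, ContinuousLinearMap.comp_assoc, ← ad_trn,
      (cl.iso.iso x hx).tgt, ← ContinuousLinearMap.mul_def,
      Wz78.g_p' hβ.adm.ok ((Spn45.p1_iff.1 (a2 x)).1 a)]
    simp
  · rw [hΦ, dP, show (cy β).Φ x = 0 from hz _, sub_zero, csB_apply]
    simp only [e x hx]
    refine ((Eqv71.cs_mul hβ.adm.ok.Jsq _ _ _).trans ?_).symm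
    rw [Circle.coe_exp, ← Complex.exp_add, neg_add_cancel, Complex.exp_zero, Eqv71.cs_one]
    rfl

end Crest.Agent.X212.Rd3
end
end

-- ▼ part X212/Ipl9/Main
section

/-!
# Row 212, RD-IPL (helper9): interpolation on windows of the cylinder
-/

set_option autoImplicit false
set_option linter.unusedSectionVars false
noncomputable section
open scoped Manifold ContDiff Topology InnerProductSpace
open MeasureTheory Set Function Filter

namespace Crest.Agent.X212.Ipl9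
open An Sob92 Cyf70
open Neck67 (Lb)
open Bki64 (win)

theorem interp {y : ℕ → ℝ} {b : ℝ} (hb : 1 ≤ b) (h0 : ∀ k, 0 ≤ y k)
    (h : ∀ l > 0, ∀ k, 2 * y (k + 1) ≤ b * (l * y k + l⁻¹ * y (k + 2))) (k : ℕ) :
    y k ^ 2 ≤ (b ^ 2) ^ (k * k) * y 0 * y (2 * k) := by
  have : ∀ δ > 0, y k ^ 2 ≤ (b ^ 2) ^ (k * k) * (y 0 + δ) * (y (2 * k) + δ) := fun δ hδ => by
    have p : ∀ j, 0 < y j + δ := fun j => by have := h0 j; positivity
    refine le_trans (pow_le_pow_left₀ (h0 k) (by linarith) 2)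
      (Rdc90.logcvx (x := fun j => y j + δ) (by positivity) p (fun j => ?_) k)
    obtain ⟨u, u0, hu⟩ : ∃ u > 0, y j + δ = u * u := ⟨_, Real.sqrt_pos.2 (p j), (Real.mul_self_sqrt (p j).le).symm⟩
    obtain ⟨v, v0, hv⟩ : ∃ v > 0, y (j + 2) + δ = v * v :=
      ⟨_, Real.sqrt_pos.2 (p _), (Real.mul_self_sqrt (p _).le).symm⟩
    have h1 := h (v / u) (by positivity) j
    have h2 : 2 * δ ≤ b * (v / u * δ + (v / u)⁻¹ * δ) := by
      have : v / u * δ + (v / u)⁻¹ * δ = 2 * δ + (u - v) ^ 2 / (u * v) * δ := by field_simp; ring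
      have q : 0 ≤ (u - v) ^ 2 / (u * v) * δ := by positivity
      rw [this]; nlinarith
    have h3 : v / u * (y j + δ) + (v / u)⁻¹ * (y (j + 2) + δ) = 2 * (u * v) := by
      rw [hu, hv]; field_simp; ring
    have h4 : y (j + 1) + δ ≤ b * (u * v) := by nlinarith
    simp only [hu, hv]
    exact (pow_le_pow_left₀ (p _).le h4 2).trans_eq (by ring)
  have c : Continuous fun δ : ℝ => (b ^ 2) ^ (k * k) * (y 0 + δ) * (y (2 * k) + δ) := by fun_prop
  simpa using ge_of_tendsto ((c.tendsto 0).mono_left (nhdsWithin_le_nhds (s := Ioi 0)))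
    (eventually_mem_nhdsWithin.mono this)

section
variable {E : Type} [NormedAddCommGroup E] [NormedSpace ℝ E] [FiniteDimensional ℝ E]
  [MeasurableSpace E] [BorelSpace E]
  {HM : Type} [TopologicalSpace HM] {I : ModelWithCorners ℝ E HM}
  {M : Type} [TopologicalSpace M] [ChartedSpace HM M] [IsManifold I ∞ M]
  [MeasurableSpace M] [T2Space M] [BorelSpace M] [SecondCountableTopology M]
  {ι : Type} [Fintype ι] {V : Type} [NormedAddCommGroup V] [InnerProductSpace ℝ V]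
  (F : Fr I M ι) {C : ℝ}

theorem lcv0 (hC : ∀ a x, ‖F.dv a x‖ ≤ C) {l : ℝ} (hl : 0 < l) {u : M → V} (hu : Sm I u)
    (hc : HasCompactSupport u) (a : ι) :
    2 * N2 F.toPre 0 (F.D a u) ≤ l * N2 F.toPre 0 u + l⁻¹ * (2 * (1 + C ^ 2) * N2 F.toPre 1 (F.D a u)) := by
  have s1 := F.sm_D hu a
  have c1 := F.hcs_D hc a
  have i0 := int_sq (FL_of_hcs (F := F.toPre) 0 hu hc)
  have i1 := int_sq (FL_of_hcs (F := F.toPre) 0 s1 c1)
  have i2 := int_sq (FL_of_hcs (F := F.toPre) 0 (F.sm_D s1 a) (F.hcs_D c1 a))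
  have h1 : N2 F.toPre 0 (F.D a (F.D a u)) ≤ N2 F.toPre 1 (F.D a u) := n2_dv_le 0 _ a
  have h2 : N2 F.toPre 0 (F.D a u) ≤ N2 F.toPre 1 (F.D a u) := n2_le_succ 0 _
  have h3 : 2 * N2 F.toPre 0 (F.D a u) ≤ l * N2 F.toPre 0 u +
      l⁻¹ * (2 * N2 F.toPre 0 (F.D a (F.D a u)) + 2 * C ^ 2 * N2 F.toPre 0 (F.D a u)) := by
    conv_lhs => rw [← ip_eq, Pre.ip, Ell97.ibp_fun F a hu hc s1]
    simp only [n2, ← integral_const_mul]
    have i3 : Integrable (fun x => l⁻¹ * (2 * ‖F.D a (F.D a u) x‖ ^ 2 + 2 * C ^ 2 * ‖F.D a u x‖ ^ 2)) F.μ :=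
      ((i2.const_mul _).add (i1.const_mul _)).const_mul _
    rw [← integral_add (i2.const_mul _) (i1.const_mul _), ← integral_const_mul,
      ← integral_add (i0.const_mul _) i3]
    refine integral_mono ((F.integrable_inner hu.continuous hc ((F.sm_D s1 a).continuous.neg.sub
      ((F.dv_sm a).continuous.smul s1.continuous))).const_mul _)
      ((i0.const_mul _).add i3) fun x => ?_
    set w := -F.D a (F.D a u) x - F.dv a x • F.D a u x
    have e1 : ‖w‖ ≤ ‖F.D a (F.D a u) x‖ + C * ‖F.D a u x‖ := (norm_sub_le _ _).trans (by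
      rw [norm_neg, norm_smul]; gcongr; exact hC a x)
    have e2 : ‖w‖ ^ 2 ≤ 2 * ‖F.D a (F.D a u) x‖ ^ 2 + 2 * C ^ 2 * ‖F.D a u x‖ ^ 2 := by
      nlinarith [pow_le_pow_left₀ (norm_nonneg _) e1 2,
        sq_nonneg (‖F.D a (F.D a u) x‖ - C * ‖F.D a u x‖)]
    have e3 : 2 * (‖u x‖ * ‖w‖) ≤ l * ‖u x‖ ^ 2 + l⁻¹ * ‖w‖ ^ 2 := by
      have : l * ‖u x‖ ^ 2 + l⁻¹ * ‖w‖ ^ 2 = 2 * (‖u x‖ * ‖w‖) + l⁻¹ * (l * ‖u x‖ - ‖w‖) ^ 2 := by
        field_simp; ring
      rw [this]; exact le_add_of_nonneg_right (by positivity)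
    have e4 := real_inner_le_norm (u x) w
    have e5 := mul_le_mul_of_nonneg_left e2 (inv_pos.2 hl).le
    beta_reduce
    linarith
  refine h3.trans (add_le_add le_rfl (mul_le_mul_of_nonneg_left ?_ (inv_pos.2 hl).le))
  nlinarith [mul_le_mul_of_nonneg_left h2 (sq_nonneg C)]

theorem lcv (hC : ∀ a x, ‖F.dv a x‖ ≤ C) {l : ℝ} (hl : 0 < l) (k : ℕ) : ∀ {u : M → V}, Sm I u →
    HasCompactSupport u → 2 * N2 F.toPre (k + 1) u ≤ (Fintype.card ι + 1 + 2 * (1 + C ^ 2)) *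
      (l * N2 F.toPre k u + l⁻¹ * N2 F.toPre (k + 2) u) := by
  have l0 := inv_pos.2 hl
  have am : ∀ {y : ℝ}, 0 ≤ y → 2 * y ≤ l * y + l⁻¹ * y := fun {y} hy => by
    have : l * y + l⁻¹ * y = 2 * y + l⁻¹ * (l - 1) ^ 2 * y := by field_simp; ring
    rw [this]; exact le_add_of_nonneg_right (by positivity)
  have n0 : (0 : ℝ) ≤ Fintype.card ι := Nat.cast_nonneg _
  induction k with
  | zero =>
    intro u hu hc
    have h1 := Finset.sum_le_sum fun a (_ : a ∈ Finset.univ) => lcv0 F hC hl hu hc a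
    have p0 : 0 ≤ N2 F.toPre 0 u := n2_nonneg 0 u
    have p1 : 0 ≤ ∑ a, N2 F.toPre 1 (F.D a u) := Finset.sum_nonneg fun a _ => n2_nonneg 1 _
    simp only [Finset.sum_add_distrib, ← Finset.mul_sum, Finset.sum_const, Finset.card_univ,
      nsmul_eq_mul] at h1
    have := am p0
    show 2 * (N2 F.toPre 0 u + ∑ a, N2 F.toPre 0 (F.D a u)) ≤
      _ * (_ + _ * (N2 F.toPre 0 u + ∑ a, N2 F.toPre 1 (F.D a u)))
    nlinarith [mul_nonneg l0.le p0, mul_nonneg hl.le p0, mul_nonneg l0.le p1, sq_nonneg C,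
      mul_nonneg n0 (mul_nonneg l0.le p0), mul_nonneg n0 (mul_nonneg l0.le p1),
      mul_nonneg (sq_nonneg C) (mul_nonneg l0.le p0), mul_nonneg (sq_nonneg C) (mul_nonneg hl.le p0)]
  | succ k ih =>
    intro u hu hc
    have h1 := Finset.sum_le_sum fun a (_ : a ∈ Finset.univ) => ih (F.sm_D hu a) (F.hcs_D hc a)
    have p0 : 0 ≤ N2 F.toPre 0 u := n2_nonneg 0 u
    simp only [Finset.sum_add_distrib, ← Finset.mul_sum] at h1
    have := am p0
    show 2 * (N2 F.toPre 0 u + ∑ a, N2 F.toPre (k + 1) (F.D a u)) ≤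
      _ * (_ * (N2 F.toPre 0 u + ∑ a, N2 F.toPre k (F.D a u)) +
        _ * (N2 F.toPre 0 u + ∑ a, N2 F.toPre (k + 2) (F.D a u)))
    nlinarith [mul_nonneg (add_nonneg n0 (by positivity : (0 : ℝ) ≤ 2 * (1 + C ^ 2)))
      (add_nonneg (mul_nonneg l0.le p0) (mul_nonneg hl.le p0))]

/-- interpolation between `L²` and `L²_{2k}` -/
theorem N2_sq_le (hC : ∀ a x, ‖F.dv a x‖ ≤ C) (k : ℕ) {u : M → V} (hu : Sm I u)
    (hc : HasCompactSupport u) : N2 F.toPre k u ^ 2 ≤ ((Fintype.card ι + 1 + 2 * (1 + C ^ 2)) ^ 2) ^ (k * k) *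
      N2 F.toPre 0 u * N2 F.toPre (2 * k) u :=
  interp (y := fun k => N2 F.toPre k u) (by have := Nat.cast_nonneg (α := ℝ) (Fintype.card ι); nlinarith)
    (fun k => n2_nonneg k u) (fun _ hl k => lcv F hC hl k hu hc) k

/-- the local form -/
theorem loc {T : ℕ → ℝ} (hT : F.Tame T) (j : ℕ) {m : ℝ} (m0 : 0 ≤ m) : ∃ K, 0 ≤ K ∧
    ∀ (S : Set M) (χ : M → ℝ) (f : M → V) (ε b : ℝ), 0 ≤ ε → 0 ≤ b → Sm I χ → HasCompactSupport χ →
      tsupport χ ⊆ S → Lb F.toPre S (2 * (j + 4)) f b → N2 F.toPre (2 * (j + 4)) χ ≤ m →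
      (Sm I (fun x => χ x • f x) → N2 F.toPre 0 (fun x => χ x • f x) ≤ ε ^ 2) →
      Lb F.toPre univ j (fun x => χ x • f x) (K * √(ε * b)) := by
  obtain ⟨B, B0, hB⟩ : ∃ B, 0 ≤ B ∧ ∀ u : M → V, Sm I u → HasCompactSupport u →
      N2 F.toPre (j + 4) u ^ 2 ≤ B * N2 F.toPre 0 u * N2 F.toPre (2 * (j + 4)) u :=
    ⟨_, by positivity, fun u => N2_sq_le F (fun a => CB_bound ((hT.dv a).2 0)) (j + 4)⟩
  have c0 := Neck67.one_le_cL (Fintype.card ι) (2 * (j + 4))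
  generalize hc : Neck67.cL (Fintype.card ι) (2 * (j + 4)) = c at c0
  refine ⟨√|T 0| * √(√(B * m) * c), by positivity, fun S χ f ε b hε hb sχ cχ ts h1 e1 e3 => ?_⟩
  let L : V →L[ℝ] ℝ →L[ℝ] V := (ContinuousLinearMap.lsmul ℝ ℝ).flip
  have hL : ‖L‖ ≤ 1 := by
    rw [ContinuousLinearMap.opNorm_flip]; exact ContinuousLinearMap.opNorm_lsmul_le
  have su : Sm I fun x => χ x • f x := Neck67.sm_bil_on L (fun x hx => h1.sm hx) sχ ts
  have cu : HasCompactSupport fun x => χ x • f x := hcs_bil_right L f cχ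
  have e2 : F.nrm _ (fun x => χ x • f x) ^ 2 ≤ _ :=
    pow_le_pow_left₀ (nrm_nonneg _ _) (Neck67.nrm_mul_on' le_rfl hL h1 sχ cχ ts) 2
  rw [mul_pow, nrm_sq, nrm_sq, abs_of_nonneg hb, hc] at e2
  have e5 : N2 F.toPre (j + 4) (fun x => χ x • f x) ≤ √(B * m) * c * (ε * b) := by
    refine (abs_le_of_sq_le_sq' ((hB _ su cu).trans ?_) (by positivity)).2
    calc _ ≤ B * ε ^ 2 * ((c * b) ^ 2 * m) := mul_le_mul (mul_le_mul_of_nonneg_left (e3 su) B0)
          (e2.trans (by gcongr)) (n2_nonneg _ _) (by positivity)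
      _ = _ := by rw [mul_pow, mul_pow, mul_pow, Real.sq_sqrt (by positivity)]; ring
  refine (Lb.of_CB su ((Sup.of_tame hT).CB j su cu)).mono ?_
  rw [mul_assoc, ← Real.sqrt_mul (by positivity), nrm_eq]
  gcongr

end

variable {E3 : Type} [NormedAddCommGroup E3] [NormedSpace ℝ E3] [FiniteDimensional ℝ E3]
  [MeasurableSpace E3] [BorelSpace E3]
  {H3 : Type} [TopologicalSpace H3] {I3 : ModelWithCorners ℝ E3 H3} [I3.Boundaryless]
  {Y : Type} [TopologicalSpace Y] [ChartedSpace H3 Y] [IsManifold I3 ∞ Y] [T2Space Y]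
  [MeasurableSpace Y] [BorelSpace Y] [SecondCountableTopology Y] [CompactSpace Y]
  {κ : Type} [Fintype κ]

theorem l2_le (F : Fr I3 Y κ) {V : Type} [NormedAddCommGroup V] [InnerProductSpace ℝ V]
    {u f : Y × ℝ → V} {p q e : ℝ} (hpq : p ≤ q) (hu : Continuous u)
    (h0 : ∀ y, ∀ t ∉ Icc p q, u (y, t) = 0) (h1 : ∀ x, ‖u x‖ ≤ ‖f x‖)
    (hf : ∀ t ∈ Icc p q, (Continuous fun y => f (y, t)) ∧ ∫ y, ‖f (y, t)‖ ^ 2 ∂F.μ ≤ e) :
    N2 (cyl F).toPre 0 u ≤ (q - p) * e := by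
  have cs : HasCompactSupport fun x => ‖u x‖ ^ 2 :=
    .intro (isCompact_univ.prod (isCompact_Icc (a := p) (b := q))) fun x hx => by
      rw [h0 x.1 x.2 fun h => hx ⟨trivial, h⟩]; simp
  refine (integral_cyl (F := F.toPre) (hu.norm.pow 2) cs).trans_le ?_
  refine (integral_mono_of_nonneg (g := (Icc p q).indicator fun _ => e)
    (Eventually.of_forall fun t => integral_nonneg fun _ => sq_nonneg _)
    ((integrable_indicator_iff measurableSet_Icc).2 (integrableOn_const (by simp)))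
    (Eventually.of_forall fun t => ?_)).trans_eq ?_
  · by_cases ht : t ∈ Icc p q
    · rw [indicator_of_mem ht]
      exact (integral_mono_of_nonneg (Eventually.of_forall fun _ => sq_nonneg _)
        (((hf t ht).1.norm.pow 2).integrable_of_hasCompactSupport (.of_compactSpace _))
        (Eventually.of_forall fun y => pow_le_pow_left₀ (norm_nonneg _) (h1 _) 2)).trans (hf t ht).2
    · simp [indicator_of_notMem ht, h0 _ t ht]
  · rw [integral_indicator measurableSet_Icc, setIntegral_const, Real.volume_real_Icc_of_le hpq,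
      smul_eq_mul]

theorem N2_le (F : Fr I3 Y κ) {χ : Y × ℝ → ℝ} {p q A : ℝ} {k : ℕ} (hpq : p ≤ q) (h : Sm (IC I3) χ)
    (hA : (cyl F).CB k χ A) (ts : tsupport χ ⊆ univ ×ˢ Icc p q) : N2 (cyl F).toPre k χ ≤
      (Fintype.card (Option κ) + 1) ^ k * A ^ 2 * (F.μ.real univ * (q - p)) := by
  have : IsFiniteMeasure ((cyl F).μ.restrict (univ ×ˢ Icc p q)) :=
    ⟨by simpa using (isCompact_univ.prod isCompact_Icc).measure_lt_top⟩
  rw [← NS_of_tsupport _ ts]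
  refine (Rsp69.n2_le_CB _ h hA).trans_eq ?_
  rw [measureReal_restrict_apply_univ, ← Real.volume_real_Icc_of_le hpq, ← measureReal_prod_prod]
  rfl

theorem ipl : Rdc90.IplStmt I3 Y κ := fun F hn V _ _ _ j => by
  obtain ⟨T, hT⟩ := Cht98.tame_cyl F hn
  let φ : ContDiffBump (0 : ℝ) := ⟨1, 3 / 2, by norm_num, by norm_num⟩
  have φ1 : ∀ t, ‖φ t‖ ≤ 1 := fun t => by rw [Real.norm_of_nonneg φ.nonneg]; exact φ.le_one
  obtain ⟨A, hA⟩ := Cht98.CBs_shift F.toPre φ.contDiff φ.hasCompactSupport.deriv φ1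
  obtain ⟨K, K0, hK⟩ := loc (V := V) (cyl F) hT j (m := (Fintype.card (Option κ) + 1) ^ (2 * (j + 4)) *
    A (2 * (j + 4)) ^ 2 * (F.μ.real univ * 3)) (by positivity)
  refine ⟨2 * (j + 4), K * √2, by positivity, fun f s ε b hε hb h1 h2 => ?_⟩
  have z : ∀ t ∉ Icc (s - 3 / 2) (s + 3 / 2), φ (t + -s) = 0 := fun t ht => φ.zero_of_le_dist (by
    rw [mem_Icc, not_and_or, not_le, not_le] at ht
    rw [dist_zero_right, Real.norm_eq_abs, le_abs]
    rcases ht with ht | ht <;> [right; left] <;> simp only [φ] <;> linarith)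
  have ts : tsupport (fun x : Y × ℝ => φ (x.2 + -s)) ⊆ univ ×ˢ Icc (s - 3 / 2) (s + 3 / 2) :=
    closure_minimal (fun x hx => ⟨trivial, by_contra fun h => hx (z _ h)⟩) (isClosed_univ.prod isClosed_Icc)
  have sub : Icc (s - 3 / 2) (s + 3 / 2) ⊆ Ioo (s - 2) (s + 2) := Icc_subset_Ioo (by linarith) (by linarith)
  have le : s - 3 / 2 ≤ s + 3 / 2 := by linarith
  refine ((hK (win Y s 2) _ f (2 * ε) b (by positivity) hb (hA (-s)).1
    ((isCompact_univ.prod isCompact_Icc).of_isClosed_subset (isClosed_tsupport _) ts)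
    (ts.trans (prod_mono Subset.rfl sub)) h1
    ((N2_le F le (hA (-s)).1 ((hA (-s)).2 _) ts).trans_eq (by congr 2; ring)) fun su =>
      (l2_le F (f := f) (e := ε ^ 2) le su.continuous (fun y t ht => by simp [z t ht]) (fun x => ?_)
        fun t ht => ⟨continuous_iff_continuousAt.2 fun y => ContinuousAt.comp (f := fun y => (y, t))
          (h1.sm (x := (y, t)) ⟨trivial, sub ht⟩).continuousAt (by fun_prop), h2 t (sub ht)⟩).trans
        (by nlinarith [sq_nonneg ε])).mono' (subset_univ _) (le_of_eq ?_)).congr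
    (Bki64.win_op _ _) fun x hx => ?_
  · rw [norm_smul]
    exact mul_le_of_le_one_left (norm_nonneg _) (φ1 _)
  · rw [mul_assoc 2, Real.sqrt_mul (by norm_num), mul_assoc]
  · rw [φ.one_of_mem_closedBall, one_smul]
    rw [mem_closedBall_zero_iff, Real.norm_eq_abs, abs_le]
    constructor <;> simp only [φ] <;> linarith [hx.2.1, hx.2.2]

end Crest.Agent.X212.Ipl9
end
end

-- ▼ part X212/Cay24/Outg

/-!
# Row 212, RDEC / OUTG (helper24): exponential convergence in one gauge, moving references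
-/

set_option autoImplicit false
set_option linter.unusedSectionVars false
noncomputable section
open scoped Manifold ContDiff Topology InnerProductSpace
open MeasureTheory Set Function Filter Real

namespace Crest.Agent.X212.Cay24
open An Cyf70 Neck67 Nd18 Rdc90 Rd78

variable {E3 : Type} [NormedAddCommGroup E3] [NormedSpace ℝ E3] [FiniteDimensional ℝ E3]
  [MeasurableSpace E3] [BorelSpace E3]
  {H3 : Type} [TopologicalSpace H3] {I3 : ModelWithCorners ℝ E3 H3} [I3.Boundaryless]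
  {Y : Type} [TopologicalSpace Y] [ChartedSpace H3 Y] [IsManifold I3 ∞ Y] [T2Space Y]
  [MeasurableSpace Y] [BorelSpace Y] [SecondCountableTopology Y] [CompactSpace Y]
  {κ : Type} [Fintype κ] {lam : Type} [Fintype lam]

theorem outg : OutgStmt I3 Y κ lam := fun D β hD hβ _ _ _ _ _ _ hσ hd hc H1 ⟨_, H2⟩ =>
  outm hβ hD hσ hd hc (fun k => by
    obtain ⟨C, T', h⟩ := H1 k
    obtain ⟨B, b0, h1, h2⟩ := lb_cy hβ k
    let L : β.m.A →L[ℝ] En (Fin β.m.N) := opL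
    refine ⟨B + (‖L‖ + 1) * |C|, C, T', fun s hs => ?_⟩
    obtain ⟨a, φ, u, ζ, q1, q2, q3, q4, h⟩ := h s hs
    refine ⟨(bh β a φ).W, (bh β a φ).Φ, u, ζ, adm_bh hβ q1 q2, fun o => ?_,
      (Lb.add isOpen_univ h2 (lb_fst q2.sm q4)).mono (by nlinarith [norm_nonneg L, abs_nonneg C]), h⟩
    refine (Lb.add isOpen_univ (h1 o) (Lb.clm isOpen_univ L (C := |C|) ?_)).mono
      (by nlinarith [abs_nonneg C])
    cases o
    exacts [(Lb.const isOpen_univ 0).mono (by simp), lb_fst (q1.sm _) (q3 _)]) H2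

end Crest.Agent.X212.Cay24
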